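import Crest.Agent.N207.S.In.Defs
import Crest.Agent.N207.S.MP
import Crest.Agent.N207.S.I1.PDefs_Mg
import Crest.Agent.N207.S.In.PostDefs
import Crest.Agent.N207.S.Top.Defs
import Crest.Agent.N207.S.Out.Vj
import Crest.Agent.N207.S.Ga.X

-- ▼ part N207/S/In/Pk
section

/-!
Row 207 (S0320): functions with first time and two space derivatives on a rectangle, polynomial
expressions in the jets, and the touching lemma.
-/

set_option autoImplicit false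

open Set

namespace Crest.Agent.N207.S.In

noncomputable section

/-- A function with its `t`, `x`, `xx` derivatives on `[t0,t1] × [0,xs]`. -/
structure Pk (t0 t1 xs : ℝ) (f ft fx fxx : ℝ → ℝ → ℝ) : Prop where
  cont : ContinuousOn (fun p : ℝ × ℝ => f p.1 p.2) (Icc t0 t1 ×ˢ Icc 0 xs)
  dt : ∀ t x, t ∈ Icc t0 t1 → x ∈ Icc 0 xs →
    HasDerivWithinAt (fun s => f s x) (ft t x) (Icc t0 t1) t
  dx : ∀ t x, t ∈ Icc t0 t1 → x ∈ Icc 0 xs → HasDerivWithinAt (f t) (fx t x) (Icc 0 xs) x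
  dxx : ∀ t x, t ∈ Icc t0 t1 → x ∈ Icc 0 xs → HasDerivWithinAt (fx t) (fxx t x) (Icc 0 xs) x

variable {t0 t1 xs : ℝ} {f ft fx fxx g gt gx gxx : ℝ → ℝ → ℝ}

theorem Pk.sub (hf : Pk t0 t1 xs f ft fx fxx) (hg : Pk t0 t1 xs g gt gx gxx) :
    Pk t0 t1 xs (fun t x => f t x - g t x) (fun t x => ft t x - gt t x)
      (fun t x => fx t x - gx t x) (fun t x => fxx t x - gxx t x) where
  cont := hf.cont.sub hg.cont
  dt t x ht hx := (hf.dt t x ht hx).sub (hg.dt t x ht hx)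
  dx t x ht hx := (hf.dx t x ht hx).sub (hg.dx t x ht hx)
  dxx t x ht hx := (hf.dxx t x ht hx).sub (hg.dxx t x ht hx)

theorem Pk.add (hf : Pk t0 t1 xs f ft fx fxx) (hg : Pk t0 t1 xs g gt gx gxx) :
    Pk t0 t1 xs (fun t x => f t x + g t x) (fun t x => ft t x + gt t x)
      (fun t x => fx t x + gx t x) (fun t x => fxx t x + gxx t x) where
  cont := hf.cont.add hg.cont
  dt t x ht hx := (hf.dt t x ht hx).add (hg.dt t x ht hx)
  dx t x ht hx := (hf.dx t x ht hx).add (hg.dx t x ht hx)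
  dxx t x ht hx := (hf.dxx t x ht hx).add (hg.dxx t x ht hx)

theorem Pk.cmul (c : ℝ) (hf : Pk t0 t1 xs f ft fx fxx) :
    Pk t0 t1 xs (fun t x => c * f t x) (fun t x => c * ft t x)
      (fun t x => c * fx t x) (fun t x => c * fxx t x) where
  cont := continuousOn_const.mul hf.cont
  dt t x ht hx := (hf.dt t x ht hx).const_mul c
  dx t x ht hx := (hf.dx t x ht hx).const_mul c
  dxx t x ht hx := (hf.dxx t x ht hx).const_mul c

/-- Product with a function of time. -/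
theorem Pk.tmul {a a' : ℝ → ℝ} (ha : ∀ t ∈ Icc t0 t1, HasDerivAt a (a' t) t)
    (hf : Pk t0 t1 xs f ft fx fxx) :
    Pk t0 t1 xs (fun t x => a t * f t x) (fun t x => a' t * f t x + a t * ft t x)
      (fun t x => a t * fx t x) (fun t x => a t * fxx t x) where
  cont := by
    refine ContinuousOn.mul (fun p hp => ?_) hf.cont
    exact ((ha p.1 hp.1).continuousAt.comp continuous_fst.continuousAt).continuousWithinAt
  dt t x ht hx := (ha t ht).hasDerivWithinAt.mul (hf.dt t x ht hx)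
  dx t x ht hx := (hf.dx t x ht hx).const_mul _
  dxx t x ht hx := (hf.dxx t x ht hx).const_mul _

/-- A function of time alone. -/
theorem Pk.time {a a' : ℝ → ℝ} (ha : ∀ t ∈ Icc t0 t1, HasDerivAt a (a' t) t) :
    Pk t0 t1 xs (fun t _ => a t) (fun t _ => a' t) (fun _ _ => 0) (fun _ _ => 0) where
  cont := fun p hp =>
    ((ha p.1 hp.1).continuousAt.comp continuous_fst.continuousAt).continuousWithinAt
  dt t _ ht _ := (ha t ht).hasDerivWithinAt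
  dx _ _ _ _ := hasDerivWithinAt_const _ _ _
  dxx _ _ _ _ := hasDerivWithinAt_const _ _ _

/-- Real powers of a positive function. -/
theorem Pk.rpow (γ : ℝ) (hf : Pk t0 t1 xs f ft fx fxx)
    (hp : ∀ t x, t ∈ Icc t0 t1 → x ∈ Icc 0 xs → 0 < f t x) :
    Pk t0 t1 xs (fun t x => f t x ^ γ) (fun t x => γ * f t x ^ γ / f t x * ft t x)
      (fun t x => γ * f t x ^ γ / f t x * fx t x)
      (fun t x => γ * f t x ^ γ / f t x * fxx t x +
        γ * (γ - 1) * f t x ^ γ / f t x ^ 2 * fx t x ^ 2) := by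
  have hdx : ∀ t x, t ∈ Icc t0 t1 → x ∈ Icc 0 xs →
      HasDerivWithinAt (fun y => f t y ^ γ) (γ * f t x ^ γ / f t x * fx t x) (Icc 0 xs) x := by
    intro t x ht hx
    have h := (hf.dx t x ht hx).rpow_const (p := γ) (Or.inl (hp t x ht hx).ne')
    convert h using 1
    rw [Real.rpow_sub_one (hp t x ht hx).ne']; ring
  refine ⟨hf.cont.rpow_const fun p h => Or.inl (hp p.1 p.2 h.1 h.2).ne', fun t x ht hx => ?_,
    hdx, fun t x ht hx => ?_⟩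
  · have h := (hf.dt t x ht hx).rpow_const (p := γ) (Or.inl (hp t x ht hx).ne')
    convert h using 1
    rw [Real.rpow_sub_one (hp t x ht hx).ne']; ring
  · have h := ((((hdx t x ht hx).const_mul γ).div (hf.dx t x ht hx) (hp t x ht hx).ne').mul
      (hf.dxx t x ht hx))
    have := (hp t x ht hx).ne'
    refine HasDerivWithinAt.congr_deriv h ?_
    simp only [Pi.div_apply]
    field_simp
    ring

/-- At a first touching point which is not on the right boundary, `f_t - Z f_xx - β f_x ≥ 0`. -/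
theorem Pk.touch (hf : Pk t0 t1 xs f ft fx fxx) {r : ℝ → ℝ} (hr : ContinuousOn r (Icc t0 t1))
    (hrs : ∀ s ∈ Icc t0 t1, r s ≤ xs) {t x Z β : ℝ} (h0 : t0 < t) (h1 : t ≤ t1) (hx0 : 0 ≤ x)
    (hx1 : x < r t) (hz : f t x = 0)
    (hp : ∀ s y, t0 ≤ s → s ≤ t → 0 ≤ y → y ≤ r s → f s y ≤ 0)
    (hZ : 0 ≤ Z) (hZ0 : x = 0 → Z = 0) (hβ : 0 ≤ β) :
    0 ≤ ft t x - Z * fxx t x - β * fx t x := by
  have hm : t ∈ Icc t0 t1 := ⟨h0.le, h1⟩
  have hxs : x < xs := hx1.trans_le (hrs t hm)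
  have hxm : x ∈ Icc 0 xs := ⟨hx0, hxs.le⟩
  have hdt : HasDerivWithinAt (fun s => f s x) (ft t x) (Iic t) t := by
    refine (hf.dt t x hm hxm).mono_of_mem_nhdsWithin ?_
    exact Filter.mem_of_superset (Ioc_mem_nhdsLE h0) fun s hs => ⟨hs.1.le, hs.2.trans h1⟩
  have hft : 0 ≤ ft t x := by
    have e2 := (hr t hm).eventually (lt_mem_nhds hx1)
    rw [eventually_nhdsWithin_iff] at e2
    obtain ⟨ε, hε, hball⟩ := Metric.eventually_nhds_iff.1 e2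
    refine MP.deriv_nonneg_of_past (a := max t0 (t - ε)) (max_lt h0 (by linarith)) hdt hz ?_
    intro s hs1 hs2
    have a1 : t0 ≤ s := (le_max_left _ _).trans hs1.le
    have a2 : t - ε < s := (le_max_right _ _).trans_lt hs1
    refine hp s x a1 hs2.le hx0 (hball ?_ ⟨a1, hs2.le.trans h1⟩).le
    rw [Real.dist_eq, abs_lt]; constructor <;> linarith
  rcases hx0.eq_or_lt with h | h
  · subst h
    have h2 : fx t 0 ≤ 0 := by
      refine MP.deriv_nonpos_of_right (b := r t) hx1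
        ((hf.dx t 0 hm hxm).mono (Icc_subset_Icc le_rfl (hrs t hm))) hz ?_
      exact fun y a b => hp t y h0.le le_rfl a.le b.le
    rw [hZ0 rfl]; nlinarith
  · have hin : ∀ y, 0 < y → y < r t → Icc 0 xs ∈ nhds y := fun y a b =>
      Icc_mem_nhds a (b.trans_le (hrs t hm))
    obtain ⟨e1, e2⟩ := MP.interior_max (f := f t) (f1 := fx t) h hx1
      (fun y a b => (hf.dx t y hm ⟨a.le, b.le.trans (hrs t hm)⟩).hasDerivAt (hin y a b))
      ((hf.dxx t x hm hxm).hasDerivAt (hin x h hx1)) hz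
      (fun y a b => hp t y h0.le le_rfl a.le b.le)
    rw [e1]; nlinarith

/-- Polynomial expressions. -/
inductive Ex
  | v (i : ℕ) : Ex
  | c (r : ℝ) : Ex
  | add (a b : Ex) : Ex
  | sub (a b : Ex) : Ex
  | mul (a b : Ex) : Ex

instance : Add Ex := ⟨Ex.add⟩
instance : Sub Ex := ⟨Ex.sub⟩
instance : Mul Ex := ⟨Ex.mul⟩

/-- Value. -/
def ev (ρ : ℕ → ℝ) : Ex → ℝ
  | .v i => ρ i
  | .c r => r
  | .add a b => ev ρ a + ev ρ b
  | .sub a b => ev ρ a - ev ρ b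
  | .mul a b => ev ρ a * ev ρ b

/-- First derivative. -/
def ev1 (ρ ρ1 : ℕ → ℝ) : Ex → ℝ
  | .v i => ρ1 i
  | .c _ => 0
  | .add a b => ev1 ρ ρ1 a + ev1 ρ ρ1 b
  | .sub a b => ev1 ρ ρ1 a - ev1 ρ ρ1 b
  | .mul a b => ev1 ρ ρ1 a * ev ρ b + ev ρ a * ev1 ρ ρ1 b

/-- Second derivative. -/
def ev2 (ρ ρ1 ρ2 : ℕ → ℝ) : Ex → ℝ
  | .v i => ρ2 i
  | .c _ => 0
  | .add a b => ev2 ρ ρ1 ρ2 a + ev2 ρ ρ1 ρ2 b
  | .sub a b => ev2 ρ ρ1 ρ2 a - ev2 ρ ρ1 ρ2 b
  | .mul a b => ev2 ρ ρ1 ρ2 a * ev ρ b + 2 * (ev1 ρ ρ1 a * ev1 ρ ρ1 b) + ev ρ a * ev2 ρ ρ1 ρ2 b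

theorem ev_add (ρ : ℕ → ℝ) (a b : Ex) : ev ρ (a + b) = ev ρ a + ev ρ b := rfl
theorem ev_sub (ρ : ℕ → ℝ) (a b : Ex) : ev ρ (a - b) = ev ρ a - ev ρ b := rfl
theorem ev_mul (ρ : ℕ → ℝ) (a b : Ex) : ev ρ (a * b) = ev ρ a * ev ρ b := rfl
theorem ev_v (ρ : ℕ → ℝ) (i : ℕ) : ev ρ (.v i) = ρ i := rfl
theorem ev_c (ρ : ℕ → ℝ) (r : ℝ) : ev ρ (.c r) = r := rfl
theorem ev1_add (ρ ρ1 : ℕ → ℝ) (a b : Ex) : ev1 ρ ρ1 (a + b) = ev1 ρ ρ1 a + ev1 ρ ρ1 b := rfl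
theorem ev1_sub (ρ ρ1 : ℕ → ℝ) (a b : Ex) : ev1 ρ ρ1 (a - b) = ev1 ρ ρ1 a - ev1 ρ ρ1 b := rfl
theorem ev1_mul (ρ ρ1 : ℕ → ℝ) (a b : Ex) :
    ev1 ρ ρ1 (a * b) = ev1 ρ ρ1 a * ev ρ b + ev ρ a * ev1 ρ ρ1 b := rfl
theorem ev1_v (ρ ρ1 : ℕ → ℝ) (i : ℕ) : ev1 ρ ρ1 (.v i) = ρ1 i := rfl
theorem ev1_c (ρ ρ1 : ℕ → ℝ) (r : ℝ) : ev1 ρ ρ1 (.c r) = 0 := rfl
theorem ev2_add (ρ ρ1 ρ2 : ℕ → ℝ) (a b : Ex) :
    ev2 ρ ρ1 ρ2 (a + b) = ev2 ρ ρ1 ρ2 a + ev2 ρ ρ1 ρ2 b := rfl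
theorem ev2_sub (ρ ρ1 ρ2 : ℕ → ℝ) (a b : Ex) :
    ev2 ρ ρ1 ρ2 (a - b) = ev2 ρ ρ1 ρ2 a - ev2 ρ ρ1 ρ2 b := rfl
theorem ev2_mul (ρ ρ1 ρ2 : ℕ → ℝ) (a b : Ex) : ev2 ρ ρ1 ρ2 (a * b) =
    ev2 ρ ρ1 ρ2 a * ev ρ b + 2 * (ev1 ρ ρ1 a * ev1 ρ ρ1 b) + ev ρ a * ev2 ρ ρ1 ρ2 b := rfl
theorem ev2_v (ρ ρ1 ρ2 : ℕ → ℝ) (i : ℕ) : ev2 ρ ρ1 ρ2 (.v i) = ρ2 i := rfl
theorem ev2_c (ρ ρ1 ρ2 : ℕ → ℝ) (r : ℝ) : ev2 ρ ρ1 ρ2 (.c r) = 0 := rfl

theorem hasDeriv_ev {ρ : ℝ → ℕ → ℝ} {ρ1 : ℕ → ℝ} {s : Set ℝ} {x : ℝ}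
    (h : ∀ i, HasDerivWithinAt (fun y => ρ y i) (ρ1 i) s x) (p : Ex) :
    HasDerivWithinAt (fun y => ev (ρ y) p) (ev1 (ρ x) ρ1 p) s x := by
  induction p with
  | v i => exact h i
  | c r => exact hasDerivWithinAt_const _ _ _
  | add a b ha hb => exact ha.add hb
  | sub a b ha hb => exact ha.sub hb
  | mul a b ha hb => exact ha.mul hb

theorem hasDeriv_ev1 {ρ ρ1 : ℝ → ℕ → ℝ} {ρ2 : ℕ → ℝ} {s : Set ℝ} {x : ℝ}
    (h : ∀ i, HasDerivWithinAt (fun y => ρ y i) (ρ1 x i) s x)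
    (h1 : ∀ i, HasDerivWithinAt (fun y => ρ1 y i) (ρ2 i) s x) (p : Ex) :
    HasDerivWithinAt (fun y => ev1 (ρ y) (ρ1 y) p) (ev2 (ρ x) (ρ1 x) ρ2 p) s x := by
  induction p with
  | v i => exact h1 i
  | c r => exact hasDerivWithinAt_const _ _ _
  | add a b ha hb => exact ha.add hb
  | sub a b ha hb => exact ha.sub hb
  | mul a b ha hb =>
    have := (ha.mul (hasDeriv_ev h b)).add ((hasDeriv_ev h a).mul hb)
    refine HasDerivWithinAt.congr_deriv this ?_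
    simp only [ev2]; ring

theorem continuousOn_ev {X : Type*} [TopologicalSpace X] {ρ : X → ℕ → ℝ} {s : Set X}
    (h : ∀ i, ContinuousOn (fun y => ρ y i) s) (p : Ex) :
    ContinuousOn (fun y => ev (ρ y) p) s := by
  induction p with
  | v i => exact h i
  | c r => exact continuousOn_const
  | add a b ha hb => exact ha.add hb
  | sub a b ha hb => exact ha.sub hb
  | mul a b ha hb => exact ha.mul hb

theorem Pk.ev {ρ ρt ρ1 ρ2 : ℝ → ℝ → ℕ → ℝ}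
    (h : ∀ i, Pk t0 t1 xs (fun t x => ρ t x i) (fun t x => ρt t x i) (fun t x => ρ1 t x i)
      (fun t x => ρ2 t x i)) (p : Ex) :
    Pk t0 t1 xs (fun t x => In.ev (ρ t x) p) (fun t x => ev1 (ρ t x) (ρt t x) p)
      (fun t x => ev1 (ρ t x) (ρ1 t x) p) (fun t x => ev2 (ρ t x) (ρ1 t x) (ρ2 t x) p) where
  cont := continuousOn_ev (ρ := fun q : ℝ × ℝ => ρ q.1 q.2) (fun i => (h i).cont) p
  dt t x ht hx := hasDeriv_ev (ρ := fun s => ρ s x) (fun i => (h i).dt t x ht hx) p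
  dx t x ht hx := hasDeriv_ev (ρ := ρ t) (fun i => (h i).dx t x ht hx) p
  dxx t x ht hx := hasDeriv_ev1 (ρ := ρ t) (ρ1 := ρ1 t) (fun i => (h i).dx t x ht hx)
    (fun i => (h i).dxx t x ht hx) p

theorem _root_.Crest.Agent.N207.S.Jet.pk {u v : ℕ → ℝ → ℝ → ℝ} (h : Jet t0 t1 xs u v) (j : ℕ) :
    Pk t0 t1 xs (u j) (v j) (u (j + 1)) (u (j + 2)) :=
  ⟨h.cu j, h.dt j, h.dx j, h.dx (j + 1)⟩

end

end Crest.Agent.N207.S.In
private theorem rz_9bfd7693de : type_of% @_root_.Crest.Agent.N207.S.In.ev2.eq_def := @_root_.Crest.Agent.N207.S.In.ev2.eq_def -- L165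
private theorem rz_e4039d20c4 : type_of% @_root_.Crest.Agent.N207.S.In.ev2.eq_1 := @_root_.Crest.Agent.N207.S.In.ev2.eq_1 -- L165
end

-- ▼ part N207/S/In/Box
section

/-!
Row 207 (S0320): evolution equations of the curvature quantities in the `x`-gauge.
-/

set_option autoImplicit false

open Set

namespace Crest.Agent.N207.S.In

noncomputable section

/-- `(1+4e)` times the trace free Ricci curvature in the `S²` directions. -/
def aH (e x w0 w1 w2 k0 k1 : ℝ) : ℝ :=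
  (1 + 2 * e) * ricA e x w0 w1 w2 k0 k1 - (1 + e) * ricB e x w0 w1 k0 k1 -
    e * ricC e x w0 w1 w2 k0 k1

/-- `(1+4e)` times the trace free Ricci curvature in the radial direction. -/
def cH (e x w0 w1 w2 k0 k1 : ℝ) : ℝ :=
  (1 + 3 * e) * ricC e x w0 w1 w2 k0 k1 - 2 * e * ricA e x w0 w1 w2 k0 k1 -
    (1 + e) * ricB e x w0 w1 k0 k1

/-- `e` times the scalar curvature. -/
def rE (e x w0 w1 w2 k0 k1 : ℝ) : ℝ :=
  2 * e * ricA e x w0 w1 w2 k0 k1 + (1 + e) * ricB e x w0 w1 k0 k1 +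
    e * ricC e x w0 w1 w2 k0 k1

theorem rE_eq {e : ℝ} (he : e ≠ 0) (x w0 w1 w2 k0 k1 : ℝ) :
    rE e x w0 w1 w2 k0 k1 = e * scal e x w0 w1 w2 k0 k1 := by
  unfold rE scal; field_simp; ring

def env (w k : ℕ → ℝ → ℝ → ℝ) (t x : ℝ) : ℕ → ℝ
  | 0 => x
  | 1 => (w 0 t x)⁻¹
  | 2 => w 1 t x
  | 3 => w 2 t x
  | 4 => k 0 t x
  | 5 => k 1 t x
  | _ => k 2 t x

def envT (w wt kt : ℕ → ℝ → ℝ → ℝ) (t x : ℝ) : ℕ → ℝ
  | 0 => 0
  | 1 => -((w 0 t x)⁻¹ ^ 2 * wt 0 t x)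
  | 2 => wt 1 t x
  | 3 => wt 2 t x
  | 4 => kt 0 t x
  | 5 => kt 1 t x
  | _ => kt 2 t x

def env1 (w k : ℕ → ℝ → ℝ → ℝ) (t x : ℝ) : ℕ → ℝ
  | 0 => 1
  | 1 => -((w 0 t x)⁻¹ ^ 2 * w 1 t x)
  | 2 => w 2 t x
  | 3 => w 3 t x
  | 4 => k 1 t x
  | 5 => k 2 t x
  | _ => k 3 t x

def env2 (w k : ℕ → ℝ → ℝ → ℝ) (t x : ℝ) : ℕ → ℝ
  | 0 => 0
  | 1 => 2 * (w 0 t x)⁻¹ ^ 3 * w 1 t x ^ 2 - (w 0 t x)⁻¹ ^ 2 * w 2 t x
  | 2 => w 3 t x
  | 3 => w 4 t x
  | 4 => k 2 t x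
  | 5 => k 3 t x
  | _ => k 4 t x

variable {e t0 t1 xs : ℝ} {w wt k kt : ℕ → ℝ → ℝ → ℝ}

theorem pk_id : Pk t0 t1 xs (fun _ x => x) (fun _ _ => 0) (fun _ _ => 1) (fun _ _ => 0) where
  cont := continuousOn_snd
  dt _ _ _ _ := hasDerivWithinAt_const _ _ _
  dx _ _ _ _ := hasDerivWithinAt_id _ _
  dxx _ _ _ _ := hasDerivWithinAt_const _ _ _

theorem pk_inv (h : XSol e t0 t1 xs w wt k kt) :
    Pk t0 t1 xs (fun t x => (w 0 t x)⁻¹) (fun t x => -((w 0 t x)⁻¹ ^ 2 * wt 0 t x))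
      (fun t x => -((w 0 t x)⁻¹ ^ 2 * w 1 t x))
      (fun t x => 2 * (w 0 t x)⁻¹ ^ 3 * w 1 t x ^ 2 - (w 0 t x)⁻¹ ^ 2 * w 2 t x) := by
  have hdx : ∀ t x, t ∈ Icc t0 t1 → x ∈ Icc 0 xs → HasDerivWithinAt (fun y => (w 0 t y)⁻¹)
      (-((w 0 t x)⁻¹ ^ 2 * w 1 t x)) (Icc 0 xs) x := by
    intro t x ht hx
    refine HasDerivWithinAt.congr_deriv ((h.jw.dx 0 t x ht hx).inv (h.pos t x ht hx).ne') ?_
    have := (h.pos t x ht hx).ne'
    field_simp
  refine ⟨(h.jw.cu 0).inv₀ fun p hp => (h.pos p.1 p.2 hp.1 hp.2).ne', fun t x ht hx => ?_, hdx,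
    fun t x ht hx => ?_⟩
  · refine HasDerivWithinAt.congr_deriv ((h.jw.dt 0 t x ht hx).inv (h.pos t x ht hx).ne') ?_
    have := (h.pos t x ht hx).ne'
    field_simp
  · refine HasDerivWithinAt.congr_deriv
      ((((hdx t x ht hx).pow 2).mul (h.jw.dx 1 t x ht hx)).neg) ?_
    simp only [Pi.pow_apply]
    norm_num
    ring

theorem pk_env (h : XSol e t0 t1 xs w wt k kt) (i : ℕ) :
    Pk t0 t1 xs (fun t x => env w k t x i) (fun t x => envT w wt kt t x i)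
      (fun t x => env1 w k t x i) (fun t x => env2 w k t x i) := by
  match i with
  | 0 => exact pk_id
  | 1 => exact pk_inv h
  | 2 => exact h.jw.pk 1
  | 3 => exact h.jw.pk 2
  | 4 => exact h.jk.pk 0
  | 5 => exact h.jk.pk 1
  | (n + 6) => exact h.jk.pk 2

def xZ : Ex := .c 1 - .v 0 * .v 4
def xW (e : ℝ) : Ex :=
  .c (2 * e) * xZ * .v 0 * (.v 3 - .v 2 * .v 2 * .v 1) + (.c 1 + .c (2 * e) * xZ) * .v 2 - .c 1
def xK (e : ℝ) : Ex :=
  .c (2 * e) * xZ * (.v 0 * .v 6 + .c 2 * .v 5) + .c e * ((.v 4 + .v 0 * .v 5) *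
    (.v 4 + .v 0 * .v 5)) + .v 5 + .v 4 * .v 4 + .c (2 * e) * (xZ * xZ) * (.v 2 * .v 2) *
      (.v 1 * .v 1)
def xU (e : ℝ) : Ex := .c (e / 2) * .v 0 * xZ * (.v 2 * .v 2) * (.v 1 * .v 1)
def xS (e : ℝ) : Ex :=
  xU e - (.c e * .v 0 * xZ * .v 3 + .c (e / 2) * (xZ - .v 0 * (.v 4 + .v 0 * .v 5)) * .v 2) * .v 1
def xA (e : ℝ) : Ex :=
  xS e + (.c (1 / 2) * .v 1 - xU e) - .c ((1 + e) / 2) * xZ * .v 2 * .v 1
def xB (e : ℝ) : Ex :=
  .c (e / 2) * (.v 4 + .v 0 * .v 5) + .c (1 / 2) * .v 4 - .c e * xZ * .v 2 * .v 1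
def xC (e : ℝ) : Ex := .c 2 * xS e + .c ((1 + e) / 2) * (.v 4 + .v 0 * .v 5)

theorem wt0 (h : XSol e t0 t1 xs w wt k kt) {t x : ℝ} (ht : t ∈ Icc t0 t1) (hx : x ∈ Icc 0 xs) :
    wt 0 t x = ev (env w k t x) (xW e) := by
  rw [h.eqW t x ht hx]
  simp only [rhsW, xW, xZ, ev_add, ev_sub, ev_mul, ev_v, ev_c, env]
  ring

theorem kt0 (h : XSol e t0 t1 xs w wt k kt) {t x : ℝ} (ht : t ∈ Icc t0 t1) (hx : x ∈ Icc 0 xs) :
    kt 0 t x = ev (env w k t x) (xK e) := by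
  rw [h.eqK t x ht hx]
  simp only [rhsK, xK, xZ, ev_add, ev_sub, ev_mul, ev_v, ev_c, env]
  ring

theorem wt1 (h : XSol e t0 t1 xs w wt k kt) (hxs : 0 < xs) {t x : ℝ} (ht : t ∈ Icc t0 t1)
    (hx : x ∈ Icc 0 xs) : wt 1 t x = ev1 (env w k t x) (env1 w k t x) (xW e) := by
  have h1 := (Pk.ev (pk_env h) (xW e)).dx t x ht hx
  have h2 := (h.jw.dv 0 t x ht hx).congr (fun y hy => (wt0 h ht hy).symm) (wt0 h ht hx).symm
  exact (uniqueDiffOn_Icc hxs x hx).eq_deriv _ h2 h1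

theorem kt1 (h : XSol e t0 t1 xs w wt k kt) (hxs : 0 < xs) {t x : ℝ} (ht : t ∈ Icc t0 t1)
    (hx : x ∈ Icc 0 xs) : kt 1 t x = ev1 (env w k t x) (env1 w k t x) (xK e) := by
  have h1 := (Pk.ev (pk_env h) (xK e)).dx t x ht hx
  have h2 := (h.jk.dv 0 t x ht hx).congr (fun y hy => (kt0 h ht hy).symm) (kt0 h ht hx).symm
  exact (uniqueDiffOn_Icc hxs x hx).eq_deriv _ h2 h1

theorem wt2 (h : XSol e t0 t1 xs w wt k kt) (hxs : 0 < xs) {t x : ℝ} (ht : t ∈ Icc t0 t1)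
    (hx : x ∈ Icc 0 xs) :
    wt 2 t x = ev2 (env w k t x) (env1 w k t x) (env2 w k t x) (xW e) := by
  have h1 := (Pk.ev (pk_env h) (xW e)).dxx t x ht hx
  have h2 := (h.jw.dv 1 t x ht hx).congr (fun y hy => (wt1 h hxs ht hy).symm)
    (wt1 h hxs ht hx).symm
  exact (uniqueDiffOn_Icc hxs x hx).eq_deriv _ h2 h1

/-- `∂_t - Z ∂_xx - β ∂_x` applied to a polynomial in the jets. -/
def box (e : ℝ) (w wt k kt : ℕ → ℝ → ℝ → ℝ) (p : Ex) (t x : ℝ) : ℝ :=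
  ev1 (env w k t x) (envT w wt kt t x) p -
    2 * e * x * (1 - x * k 0 t x) * ev2 (env w k t x) (env1 w k t x) (env2 w k t x) p -
    (1 + 2 * e * (1 - x * k 0 t x)) * ev1 (env w k t x) (env1 w k t x) p

def xAH (e : ℝ) : Ex := .c (1 + 2 * e) * xA e - .c (1 + e) * xB e - .c e * xC e
def xCH (e : ℝ) : Ex := .c (1 + 3 * e) * xC e - .c (2 * e) * xA e - .c (1 + e) * xB e
def xRE (e : ℝ) : Ex := .c (2 * e) * xA e + .c (1 + e) * xB e + .c e * xC e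

theorem ev_xS (t x : ℝ) : ev (env w k t x) (xS e) =
    kSF e x (w 0 t x) (w 1 t x) (w 2 t x) (k 0 t x) (k 1 t x) := by
  simp only [kSF, xS, xU, xZ, ev_add, ev_sub, ev_mul, ev_v, ev_c, env]; ring

theorem ev_xA (t x : ℝ) : ev (env w k t x) (xA e) =
    ricA e x (w 0 t x) (w 1 t x) (w 2 t x) (k 0 t x) (k 1 t x) := by
  simp only [ricA, xA, ev_xS, xU, xZ, ev_add, ev_sub, ev_mul, ev_v, ev_c, env]; ring

theorem ev_xB (t x : ℝ) : ev (env w k t x) (xB e) =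
    ricB e x (w 0 t x) (w 1 t x) (k 0 t x) (k 1 t x) := by
  simp only [ricB, xB, xZ, ev_add, ev_sub, ev_mul, ev_v, ev_c, env]; ring

theorem ev_xC (t x : ℝ) : ev (env w k t x) (xC e) =
    ricC e x (w 0 t x) (w 1 t x) (w 2 t x) (k 0 t x) (k 1 t x) := by
  simp only [ricC, xC, ev_xS, ev_add, ev_mul, ev_v, ev_c, env]; ring

theorem ev_xAH (t x : ℝ) : ev (env w k t x) (xAH e) =
    aH e x (w 0 t x) (w 1 t x) (w 2 t x) (k 0 t x) (k 1 t x) := by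
  simp only [aH, xAH, ev_xA, ev_xB, ev_xC, ev_sub, ev_mul, ev_c]

theorem ev_xCH (t x : ℝ) : ev (env w k t x) (xCH e) =
    cH e x (w 0 t x) (w 1 t x) (w 2 t x) (k 0 t x) (k 1 t x) := by
  simp only [cH, xCH, ev_xA, ev_xB, ev_xC, ev_sub, ev_mul, ev_c]

theorem ev_xRE (t x : ℝ) : ev (env w k t x) (xRE e) =
    rE e x (w 0 t x) (w 1 t x) (w 2 t x) (k 0 t x) (k 1 t x) := by
  simp only [rE, xRE, ev_xA, ev_xB, ev_xC, ev_add, ev_mul, ev_c]

theorem box_rE (h : XSol e t0 t1 xs w wt k kt) (hxs : 0 < xs) {t x : ℝ} (ht : t ∈ Icc t0 t1)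
    (hx : x ∈ Icc 0 xs) : box e w wt k kt (xRE e) t x =
      2 * (2 * e * ev (env w k t x) (xA e) ^ 2 + (1 + e) * ev (env w k t x) (xB e) ^ 2 +
        e * ev (env w k t x) (xC e) ^ 2) := by
  have a0 := wt0 h ht hx
  have a1 := wt1 h hxs ht hx
  have a2 := wt2 h hxs ht hx
  have b0 := kt0 h ht hx
  have b1 := kt1 h hxs ht hx
  simp only [xW, xK, xZ, ev_add, ev_sub, ev_mul, ev_v, ev_c, ev1_add, ev1_sub, ev1_mul, ev1_v,
    ev1_c, ev2_add, ev2_sub, ev2_mul, ev2_v, ev2_c, env, env1, env2] at a0 a1 a2 b0 b1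
  simp only [box, xRE, xA, xB, xC, xS, xU, xZ, ev_add, ev_sub, ev_mul, ev_v, ev_c, ev1_add,
    ev1_sub, ev1_mul, ev1_v, ev1_c, ev2_add, ev2_sub, ev2_mul, ev2_v, ev2_c, env, env1, env2, envT]
  rw [a0, a1, a2, b0, b1]
  ring

/-- The quadratic term. -/
def qq (e a c : ℝ) : ℝ := (1 + e) * (2 * a ^ 2 + c ^ 2) + e * (2 * a + c) ^ 2

theorem box_aH (h : XSol e t0 t1 xs w wt k kt) (hxs : 0 < xs) {t x : ℝ} (ht : t ∈ Icc t0 t1)
    (hx : x ∈ Icc 0 xs) : (1 + e) * (1 + 4 * e) ^ 2 * box e w wt k kt (xAH e) t x =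
      (1 + e) * (1 + 4 * e) ^ 2 * (((w 0 t x)⁻¹ - 4 * ev (env w k t x) (xU e) +
        2 * e * (1 - x * k 0 t x) * w 1 t x * (w 0 t x)⁻¹) * ev (env w k t x) (xAH e) +
        (2 * ev (env w k t x) (xU e) + e * (1 - x * k 0 t x) * w 1 t x * (w 0 t x)⁻¹ +
          2 * ev (env w k t x) (xS e)) * ev (env w k t x) (xCH e)) +
      2 * (1 + e) * (1 + 4 * e) * ev (env w k t x) (xRE e) * ev (env w k t x) (xAH e) -
      2 * e * qq e (ev (env w k t x) (xAH e)) (ev (env w k t x) (xCH e)) := by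
  have a0 := wt0 h ht hx
  have a1 := wt1 h hxs ht hx
  have a2 := wt2 h hxs ht hx
  have b0 := kt0 h ht hx
  have b1 := kt1 h hxs ht hx
  simp only [xW, xK, xZ, ev_add, ev_sub, ev_mul, ev_v, ev_c, ev1_add, ev1_sub, ev1_mul, ev1_v,
    ev1_c, ev2_add, ev2_sub, ev2_mul, ev2_v, ev2_c, env, env1, env2] at a0 a1 a2 b0 b1
  simp only [box, qq, xAH, xCH, xRE, xA, xB, xC, xS, xU, xZ, ev_add, ev_sub, ev_mul, ev_v, ev_c,
    ev1_add, ev1_sub, ev1_mul, ev1_v, ev1_c, ev2_add, ev2_sub, ev2_mul, ev2_v, ev2_c, env, env1,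
    env2, envT]
  rw [a0, a1, a2, b0, b1]
  ring

theorem box_cH (h : XSol e t0 t1 xs w wt k kt) (hxs : 0 < xs) {t x : ℝ} (ht : t ∈ Icc t0 t1)
    (hx : x ∈ Icc 0 xs) : (1 + e) * (1 + 4 * e) ^ 2 * (x * box e w wt k kt (xCH e) t x) =
      (1 + e) * (1 + 4 * e) ^ 2 * ((x * (-4 * ev (env w k t x) (xU e) -
        e * (k 0 t x + x * k 1 t x)) - (1 + 2 * e) * (1 - x * k 0 t x)) * ev (env w k t x) (xCH e) +
        (4 * x * (ev (env w k t x) (xU e) + ev (env w k t x) (xS e) -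
          e * (k 0 t x + x * k 1 t x) / 2) - 2 * e * (1 - x * k 0 t x)) *
          ev (env w k t x) (xAH e)) +
      x * (2 * (1 + e) * (1 + 4 * e) * ev (env w k t x) (xRE e) * ev (env w k t x) (xCH e) -
      2 * e * qq e (ev (env w k t x) (xAH e)) (ev (env w k t x) (xCH e))) := by
  have a0 := wt0 h ht hx
  have a1 := wt1 h hxs ht hx
  have a2 := wt2 h hxs ht hx
  have b0 := kt0 h ht hx
  have b1 := kt1 h hxs ht hx
  simp only [xW, xK, xZ, ev_add, ev_sub, ev_mul, ev_v, ev_c, ev1_add, ev1_sub, ev1_mul, ev1_v,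
    ev1_c, ev2_add, ev2_sub, ev2_mul, ev2_v, ev2_c, env, env1, env2] at a0 a1 a2 b0 b1
  simp only [box, qq, xAH, xCH, xRE, xA, xB, xC, xS, xU, xZ, ev_add, ev_sub, ev_mul, ev_v, ev_c,
    ev1_add, ev1_sub, ev1_mul, ev1_v, ev1_c, ev2_add, ev2_sub, ev2_mul, ev2_v, ev2_c, env, env1,
    env2, envT]
  rw [a0, a1, a2, b0, b1]
  ring

end

end Crest.Agent.N207.S.In
private theorem rz_4c81b26d77 : type_of% @_root_.Crest.Agent.N207.S.In.env.eq_1 := @_root_.Crest.Agent.N207.S.In.env.eq_1 -- L34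
private theorem rz_be821dd92e : type_of% @_root_.Crest.Agent.N207.S.In.env1.eq_1 := @_root_.Crest.Agent.N207.S.In.env1.eq_1 -- L52
private theorem rz_57d9d4197a : type_of% @_root_.Crest.Agent.N207.S.In.env2.eq_1 := @_root_.Crest.Agent.N207.S.In.env2.eq_1 -- L61
private theorem rz_d0872a5c85 : type_of% @_root_.Crest.Agent.N207.S.In.envT.eq_1 := @_root_.Crest.Agent.N207.S.In.envT.eq_1 -- L43
end

-- ▼ part N207/S/Id1
section

/-!
Row 207 (S0320), block I1 (d): `0 < w_x < 2` in the inner region (helper55).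
-/

set_option autoImplicit false

open Set

namespace Crest.Agent.N207.S.I1

open MP Top

variable {e t xs T C : ℝ} {w wt k kt : ℕ → ℝ → ℝ → ℝ}

/-- zero order coefficient in the equation of `P = w_x`. -/
noncomputable def cP (e x w0 w1 k0 k1 : ℝ) : ℝ :=
  2 * e * (1 - x / w0 * w1) * (w0 * -(k0 + x * k1) - (1 - x * k0) * w1) / w0

/-- drift in the equation of `P = w_x`. -/
noncomputable def bP (e x w0 w1 k0 k1 : ℝ) : ℝ :=
  1 + 4 * e * (1 - x * k0) + 2 * e * (x / w0 * (w0 * -(k0 + x * k1))) -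
    4 * e * (1 - x * k0) * (x / w0 * w1)

theorem wt1_eq (h : XSol e 0 t xs w wt k kt) (hxs : 0 < xs) {s x : ℝ} (hs : s ∈ Icc 0 t)
    (hx : x ∈ Icc 0 xs) : wt 1 s x = 2 * e * (1 - x * k 0 s x) * x * w 3 s x +
      bP e x (w 0 s x) (w 1 s x) (k 0 s x) (k 1 s x) * w 2 s x +
      cP e x (w 0 s x) (w 1 s x) (k 0 s x) (k 1 s x) * w 1 s x := by
  have := (h.pos s x hs hx).ne'
  rw [In.wt1 h hxs hs hx]
  simp only [In.xW, In.xZ, In.ev1_add, In.ev1_sub, In.ev1_mul, In.ev1_v, In.ev1_c, In.ev_add,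
    In.ev_sub, In.ev_mul, In.ev_v, In.ev_c, In.env, In.env1, bP, cP]
  field_simp
  ring

theorem bP_zero (e w0 w1 k0 k1 : ℝ) : bP e 0 w0 w1 k0 k1 = 1 + 4 * e := by simp [bP]

/-- generic maximum principle for `σ P` against a barrier depending on time only. -/
theorem mpP (h : XSol e 0 t xs w wt k kt) (he : 0 ≤ e) (hT : t < T)
    (hxs : 1 / 200 * (T - 0) ≤ xs) {σ : ℝ} {g g' : ℝ → ℝ} (hg : ∀ s, HasDerivAt g (g' s) s)
    (hz : ∀ s ∈ Icc 0 t, ∀ x ∈ Icc 0 xs, 0 < 1 - x * k 0 s x)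
    (h0 : ∀ x, 0 ≤ x → x ≤ 1 / 200 * (T - 0) → σ * w 1 0 x < g 0)
    (hr : ∀ s ∈ Icc 0 t, σ * w 1 s (1 / 200 * (T - s)) < g s)
    (hc : ∀ s ∈ Icc 0 t, ∀ x, 0 ≤ x → x ≤ 1 / 200 * (T - s) → σ * w 1 s x = g s →
      cP e x (w 0 s x) (w 1 s x) (k 0 s x) (k 1 s x) * g s < g' s) :
    ∀ s ∈ Icc 0 t, ∀ x, 0 ≤ x → x ≤ 1 / 200 * (T - s) → σ * w 1 s x < g s := by
  have hy : (0 : ℝ) < 1 / 200 := by norm_num
  have hgc : Continuous g := continuous_iff_continuousAt.2 fun s => (hg s).continuousAt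
  have main := mp_family_left (ι := Unit) (r := fun s => 1 / 200 * (T - s)) (a := 0) (t0 := 0)
    (t1 := t) (by fun_prop) (fun t _ b => mul_pos hy (by linarith))
    (fun _ s x => σ * w 1 s x - g s) (fun _ s x => σ * wt 1 s x - g' s)
    (fun _ s x => σ * w 2 s x) (fun _ s x => σ * w 3 s x) ?_ ?_ ?_ ?_ ?_ ?_ ?_ ?_ ?_
  · intro s hs x a b
    linarith [main () s x hs.1 hs.2 a b]
  · intro _
    exact (continuousOn_const.mul ((h.jw.cu 1).mono (reg_sub hy hxs))).sub (by fun_prop)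
  · intro _ s x a b c d
    exact ((jet_dt h.jw 1 a b c (le_xs hy hxs a.le d.le)).const_mul σ).sub (hg s).hasDerivWithinAt
  · intro _ s x a b c d
    exact ((jet_dx h.jw 1 a.le b c (lt_xs hy hxs a.le d)).const_mul σ).sub_const _
  · intro _ s a b
    have h1 : 0 ≤ xs := le_xs hy hxs a.le (mul_pos hy (by linarith)).le
    exact (((h.jw.dx 1 s 0 ⟨a.le, b⟩ ⟨le_rfl, h1⟩).mono
      (Icc_subset_Icc le_rfl (le_xs hy hxs a.le le_rfl))).const_mul σ).sub_const _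
  · intro _ s x a b c d
    exact (jet_dx h.jw 2 a.le b c (lt_xs hy hxs a.le d)).const_mul σ
  · intro _ x a b
    linarith [h0 x a b]
  · intro _ s x a b u d _ e0 e1 e2 e3
    have hx : x ∈ Icc 0 xs := ⟨u.le, le_xs hy hxs a.le d.le⟩
    have h1 := hc s ⟨a.le, b⟩ x u.le d.le (by linarith)
    have h2 := hz s ⟨a.le, b⟩ x hx
    rw [wt1_eq h (u.trans_le hx.2) ⟨a.le, b⟩ hx] at e1
    have h3 : 2 * e * (1 - x * k 0 s x) * x * (σ * w 3 s x) ≤ 0 :=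
      mul_nonpos_of_nonneg_of_nonpos (by positivity) e3
    rw [← show σ * w 1 s x = g s by linarith] at h1
    have h4 : bP e x (w 0 s x) (w 1 s x) (k 0 s x) (k 1 s x) * (σ * w 2 s x) = 0 := by
      rw [e2, mul_zero]
    linarith
  · intro _ s a b _ e0 e1 e2
    have h1 : 0 < xs := lt_xs hy hxs a.le (mul_pos hy (by linarith))
    have h2 := hc s ⟨a.le, b⟩ 0 le_rfl (mul_pos hy (by linarith)).le (by linarith)
    rw [wt1_eq h h1 ⟨a.le, b⟩ ⟨le_rfl, h1.le⟩, bP_zero] at e1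
    rw [← show σ * w 1 s 0 = g s by linarith] at h2
    have h3 : (1 + 4 * e) * (σ * w 2 s 0) ≤ 0 := mul_nonpos_of_nonneg_of_nonpos (by linarith) e2
    linarith
  · intro _ s a b _ e0
    linarith [hr s ⟨a.le, b⟩]

/-- `P > 0`. -/
theorem posP (h : XSol e 0 t xs w wt k kt) (he : 0 ≤ e) (hT : t < T)
    (hxs : 1 / 200 * (T - 0) ≤ xs) (hz : ∀ s ∈ Icc 0 t, ∀ x ∈ Icc 0 xs, 0 < 1 - x * k 0 s x)
    (h0 : ∀ x, 0 ≤ x → x ≤ 1 / 200 * (T - 0) → 1 / 2 ≤ w 1 0 x)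
    (hr : ∀ s ∈ Icc 0 t, 1 / 2 ≤ w 1 s (1 / 200 * (T - s))) :
    ∀ s ∈ Icc 0 t, ∀ x, 0 ≤ x → x ≤ 1 / 200 * (T - s) → 0 < w 1 s x := by
  have hy : (0 : ℝ) < 1 / 200 := by norm_num
  have c0 := h.jw.cu 0
  have c1 := h.jw.cu 1
  have c2 := h.jk.cu 0
  have c3 := h.jk.cu 1
  have hw : ∀ p ∈ Icc 0 t ×ˢ Icc 0 xs, w 0 p.1 p.2 ≠ 0 := fun p hp =>
    (h.pos p.1 p.2 hp.1 hp.2).ne'
  obtain ⟨L, hL⟩ := (isCompact_Icc.prod isCompact_Icc).exists_bound_of_continuousOn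
    (f := fun p : ℝ × ℝ => cP e p.2 (w 0 p.1 p.2) (w 1 p.1 p.2) (k 0 p.1 p.2) (k 1 p.1 p.2))
    (s := Icc 0 t ×ˢ Icc 0 xs) (by
      unfold cP
      exact ((continuousOn_const.mul (continuousOn_const.sub ((continuousOn_snd.div c0 hw).mul
        c1))).mul ((c0.mul (c2.add (continuousOn_snd.mul c3)).neg).sub
          ((continuousOn_const.sub (continuousOn_snd.mul c2)).mul c1))).div c0 hw)
  have hle : ∀ s, 0 ≤ s → Real.exp (-(|L| + 1) * s) ≤ 1 := fun s hs =>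
    Real.exp_le_one_iff.2 (by nlinarith [abs_nonneg L])
  have main := mpP (σ := -1) (g := fun s => -(1 / 4) * Real.exp (-(|L| + 1) * s))
    (g' := fun s => -(1 / 4) * (Real.exp (-(|L| + 1) * s) * -(|L| + 1))) h he hT hxs
    (fun s => ((((hasDerivAt_id s).const_mul (-(|L| + 1))).exp).const_mul (-(1 / 4))).congr_deriv
      (by simp only [id, mul_one])) hz
    (fun x a b => by linarith [h0 x a b, hle 0 le_rfl])
    (fun s hs => by linarith [hr s hs, hle s hs.1]) fun s hs x a b _ => by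
      have h1 := hL (s, x) ⟨hs, a, le_xs hy hxs hs.1 b⟩
      have h2 := Real.exp_pos (-(|L| + 1) * s)
      have h3 := (abs_le.1 (h1.trans (le_abs_self L))).1
      nlinarith
  intro s hs x a b
  linarith [main s hs x a b, Real.exp_pos (-(|L| + 1) * s)]

theorem rx_bd {x w0 k0 k1 : ℝ} (hx : 0 ≤ x) (hw : x ≤ w0) (h0 : |w0 * k0| ≤ 1 / 100)
    (h1 : |w0 ^ 2 * k1| ≤ 1 / 100) : |x * k0| ≤ 1 / 100 ∧ |w0 * -(k0 + x * k1)| ≤ 1 / 50 := by
  have hw0 : 0 ≤ w0 := hx.trans hw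
  rw [abs_mul, abs_of_nonneg hw0] at h0
  rw [abs_mul, abs_of_nonneg (sq_nonneg _)] at h1
  have a := abs_nonneg k0
  have b := abs_nonneg k1
  constructor
  · rw [abs_mul, abs_of_nonneg hx]; nlinarith
  · rw [abs_mul, abs_of_nonneg hw0, abs_neg]
    have c := abs_add_le k0 (x * k1)
    rw [abs_mul, abs_of_nonneg hx] at c
    nlinarith [mul_le_mul_of_nonneg_left c hw0, mul_le_mul_of_nonneg_right hw (mul_nonneg hw0 b)]

theorem alg_d {e z κ ρ B p2 p3 : ℝ} (he : 0 ≤ e) (he1 : e ≤ 1 / 1000) (z0 : 99 / 100 ≤ z)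
    (z1 : z ≤ 101 / 100) (hκ : |κ| ≤ 1 / 50) (r0 : 0 ≤ ρ) (r1 : ρ ≤ 1) (hB : 0 < B) (hB1 : B ≤ 1)
    (e2 : p2 = -(1 / 10 * B)) (e3 : p3 ≤ 1 / 10 * (1 / 10 + 1) * B)
    (e1 : -(3 / 400 * B) ≤ 2 * e * z * p3 +
      (1 + 4 * e * z + 2 * e * (ρ * κ) - 4 * e * z * (ρ * (1 + B))) * p2 +
      2 * e * ((1 - ρ * (1 + B)) * (κ - z * (1 + B)) * ρ * (1 + B))) : False := by
  obtain ⟨k0, k1⟩ := abs_le.1 hκ
  have ez0 : 0 ≤ e * z := mul_nonneg he (by linarith)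
  have ez1 : e * z ≤ 1 / 900 := by nlinarith
  have a1 : 2 * (e * z) * p3 ≤ 2 * (e * z) * (11 / 100 * B) :=
    mul_le_mul_of_nonneg_left (by linarith) (by linarith)
  have a2 : ρ * (1 + B) ≤ 2 := by nlinarith
  have a3 : -(1 / 50) ≤ ρ * κ := by nlinarith
  have a4 : 9 / 10 ≤ 1 + 4 * e * z + 2 * e * (ρ * κ) - 4 * e * z * (ρ * (1 + B)) := by
    nlinarith [mul_le_mul_of_nonneg_left a2 ez0, mul_le_mul_of_nonneg_left a3 he]
  have a5 : (1 - ρ * (1 + B)) * (κ - z * (1 + B)) * ρ * (1 + B) ≤ 5 * B := by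
    have b0 : 0 ≤ z * (1 + B) - κ := by nlinarith
    have b1 : z * (1 + B) - κ ≤ 5 / 2 := by nlinarith
    have b2 : ρ * (1 + B) - 1 ≤ B := by nlinarith
    have b3 : 0 ≤ (z * (1 + B) - κ) * (ρ * (1 + B)) := by positivity
    have b4 : (z * (1 + B) - κ) * (ρ * (1 + B)) ≤ 5 / 2 * 2 :=
      mul_le_mul b1 a2 (by positivity) (by norm_num)
    nlinarith [mul_le_mul_of_nonneg_right b2 b3]
  rw [e2] at e1
  nlinarith [mul_le_mul_of_nonneg_left a5 he, mul_le_mul_of_nonneg_right a4 hB.le,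
    mul_le_mul_of_nonneg_right ez1 hB.le, mul_le_mul_of_nonneg_right he1 hB.le]

theorem one_le_neg {x : ℝ} (h0 : 0 < x) (h1 : x ≤ 1) : 1 ≤ x ^ (-(1 / 10 : ℝ)) :=
  Real.one_le_rpow_of_pos_of_le_one_of_nonpos h0 h1 (by norm_num)

/-- `D < 2 τ^(3/2) x^(-1/10)`. -/
theorem upD (h : XSol e 0 t xs w wt k kt) (he : 0 ≤ e) (he1 : e ≤ 1 / 1000) (ht : 0 ≤ t)
    (hT : t < T) (hT1 : T ≤ 1) (hxs : 1 / 200 * (T - 0) ≤ xs)
    (hb : ∀ s ∈ Icc 0 t, ∀ x, 0 ≤ x → x ≤ 1 / 200 * (T - s) → x ≤ w 0 s x ∧ w 1 s x ≤ 2 ∧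
      |w 0 s x * k 0 s x| ≤ 1 / 100 ∧ |w 0 s x ^ 2 * k 1 s x| ≤ 1 / 100)
    (h0 : ∀ x, 0 ≤ x → x ≤ 1 / 200 * (T - 0) → w 1 0 x - 1 ≤ T ^ (3 / 2 : ℝ))
    (hr : ∀ s ∈ Icc 0 t, w 1 s (1 / 200 * (T - s)) - 1 ≤ (T - s) ^ (3 / 2 : ℝ)) :
    ∀ s ∈ Icc 0 t, ∀ x, 0 < x → x ≤ 1 / 200 * (T - s) →
      w 1 s x - 1 < 2 * (T - s) ^ (3 / 2 : ℝ) * x ^ (-(1 / 10 : ℝ)) := by
  have hy : (0 : ℝ) < 1 / 200 := by norm_num
  have hd : ∀ s, s ≤ t → HasDerivAt (fun s => 2 * (T - s) ^ (3 / 2 : ℝ))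
      (-(3 * (T - s) ^ (3 / 2 : ℝ) / (T - s))) s := fun s hs => by
    have := ((hasDerivAt_rpow_div (x := T - s) (by linarith) (3 / 2)).comp s
      ((hasDerivAt_id s).const_sub T)).const_mul 2
    exact this.congr_deriv (by ring)
  have hp : ∀ s, s ≤ t → 0 < (T - s) ^ (3 / 2 : ℝ) := fun s hs =>
    Real.rpow_pos_of_pos (by linarith) _
  have main := mp_sing (ι := Unit) (r := fun s => 1 / 200 * (T - s))
    (s := fun s => 2 * (T - s) ^ (3 / 2 : ℝ))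
    (st := fun s => -(3 * (T - s) ^ (3 / 2 : ℝ) / (T - s))) (a := 1 / 10) (b := 0) (K := 0) ht
    (by norm_num) le_rfl (by fun_prop) (fun t _ b => mul_pos hy (by linarith))
    (fun s hs => (hd s hs.2).continuousAt.continuousWithinAt)
    (fun s _ b => by linarith [hp s b]) (fun s _ b => (hd s b).hasDerivWithinAt)
    (fun _ t x => w 1 t x - 1) (fun _ t x => wt 1 t x) (fun _ t x => w 2 t x)
    (fun _ t x => w 3 t x) ?_ ?_ ?_ ?_ ?_ ?_ ?_
  · intro s hs x a b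
    have := main () s x hs.1 hs.2 a b
    linarith
  · intro _
    exact ((h.jw.cu 1).mono (reg_sub hy hxs)).sub continuousOn_const
  · intro _ t x a b c d
    exact (jet_dt h.jw 1 a b c.le (le_xs hy hxs a.le d.le)).sub_const 1
  · intro _ t x a b c d
    exact (jet_dx h.jw 1 a.le b c (lt_xs hy hxs a.le d)).sub_const 1
  · intro _ t x a b c d
    exact jet_dx h.jw 2 a.le b c (lt_xs hy hxs a.le d)
  · intro _ x a b
    have h1 := h0 x a.le b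
    have h2 := hp 0 ht
    have h3 := one_le_neg a (by linarith)
    rw [sub_zero] at h2 ⊢
    nlinarith
  · intro _ s x a b u d e0 e1 e2 e3
    have hx : x ∈ Icc 0 xs := ⟨u.le, le_xs hy hxs a.le d.le⟩
    have hw := h.pos s x ⟨a.le, b⟩ hx
    obtain ⟨b1, b2, b3, b4⟩ := hb s ⟨a.le, b⟩ x u.le d.le
    obtain ⟨b5, b6⟩ := rx_bd u.le b1 b3 b4
    obtain ⟨b7, b8⟩ := abs_le.1 b5
    rw [wt1_eq h (u.trans_le hx.2) ⟨a.le, b⟩ hx] at e1
    have hτ : 0 < T - s := by linarith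
    have hq : 0 < x ^ (-(1 / 10 : ℝ)) := Real.rpow_pos_of_pos u _
    simp only [zero_mul, zero_add, zero_sub] at e0 e2 e3
    obtain ⟨B, hB⟩ : ∃ B, B = 2 * (T - s) ^ (3 / 2 : ℝ) * x ^ (-(1 / 10 : ℝ)) := ⟨_, rfl⟩
    have hB0 : 0 < B := by rw [hB]; exact mul_pos (by linarith [hp s b]) hq
    have m1 : -(3 * (T - s) ^ (3 / 2 : ℝ) / (T - s)) * x ^ (-(1 / 10 : ℝ)) =
        -(3 / 2 * B / (T - s)) := by rw [hB]; ring
    rw [m1] at e1
    rw [← hB] at e0 e2 e3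
    have m2 : x * (3 / 2 * B / (T - s)) ≤ 3 / 400 * B := by
      rw [← mul_div_assoc, div_le_iff₀ hτ]; nlinarith
    have m3 := mul_le_mul_of_nonneg_left e1 u.le
    have m4 : w 1 s x = 1 + B := by linarith
    refine alg_d (z := 1 - x * k 0 s x) (ρ := x / w 0 s x) he he1 (by linarith) (by linarith) b6
      (by positivity) ((div_le_one hw).2 b1) hB0 (by linarith) e2 e3 ?_
    simp only [bP, cP, m4] at m3
    refine le_trans (by linarith) (m3.trans (le_of_eq ?_))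
    ring
  · intro _ s a b
    have h1 := hr s ⟨a.le, b⟩
    have h2 := hp s b
    have h3 := one_le_neg (x := 1 / 200 * (T - s)) (by linarith) (by linarith)
    nlinarith

theorem small_x {τ x : ℝ} (h0 : 0 < τ) (h1 : τ ≤ 1 / 100) (hx : 0 < x)
    (h : 3 / 4 < 2 * τ ^ (3 / 2 : ℝ) * x ^ (-(1 / 10 : ℝ))) : x < τ ^ 3 / 3 := by
  by_contra hn
  have a1 : τ ^ (5 : ℝ) ≤ x := by
    rw [show (5 : ℝ) = (5 : ℕ) by norm_num, Real.rpow_natCast]
    have : τ ^ 2 ≤ 1 / 3 := by nlinarith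
    have h3 := pow_pos h0 3
    nlinarith [not_lt.1 hn]
  have a2 : x ^ (-(1 / 10 : ℝ)) ≤ (τ ^ (5 : ℝ)) ^ (-(1 / 10 : ℝ)) :=
    Real.rpow_le_rpow_of_nonpos (Real.rpow_pos_of_pos h0 _) a1 (by norm_num)
  rw [← Real.rpow_mul h0.le] at a2
  have a3 : τ ^ (3 / 2 : ℝ) * τ ^ (5 * -(1 / 10) : ℝ) = τ := by
    rw [← Real.rpow_add h0]; norm_num
  nlinarith [mul_le_mul_of_nonneg_left a2 (Real.rpow_pos_of_pos h0 (3 / 2)).le]

/-- `P < 7/4`. -/
theorem upP (h : XSol e 0 t xs w wt k kt) (he : 0 < e) (he1 : e ≤ 1 / 1000) (ht : 0 ≤ t)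
    (hT : t < T) (hT1 : T ≤ 1 / 100) (hxs : 1 / 200 * (T - 0) ≤ xs)
    (hz : ∀ s ∈ Icc 0 t, ∀ x ∈ Icc 0 xs, 0 < 1 - x * k 0 s x)
    (hb : ∀ s ∈ Icc 0 t, ∀ x, 0 ≤ x → x ≤ 1 / 200 * (T - s) → 1 / 4 * (T - s) ^ 3 ≤ w 0 s x - x ∧
      w 1 s x ≤ 2 ∧ |w 0 s x * k 0 s x| ≤ 1 / 100 ∧ |w 0 s x ^ 2 * k 1 s x| ≤ 1 / 100)
    (h0 : ∀ x, 0 ≤ x → x ≤ 1 / 200 * (T - 0) → w 1 0 x - 1 ≤ T ^ (3 / 2 : ℝ))
    (hr : ∀ s ∈ Icc 0 t, w 1 s (1 / 200 * (T - s)) - 1 ≤ (T - s) ^ (3 / 2 : ℝ)) :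
    ∀ s ∈ Icc 0 t, ∀ x, 0 ≤ x → x ≤ 1 / 200 * (T - s) → w 1 s x < 7 / 4 := by
  have hy : (0 : ℝ) < 1 / 200 := by norm_num
  have hτ : ∀ s ∈ Icc 0 t, 0 < (T - s) ^ 3 := fun s hs => pow_pos (by linarith [hs.2]) 3
  have hD := upD h he.le he1 ht hT (by linarith) hxs
    (fun s hs x a b => ⟨by linarith [(hb s hs x a b).1, hτ s hs], (hb s hs x a b).2⟩) h0 hr
  have hs2 : ∀ s ∈ Icc 0 t, (T - s) ^ (3 / 2 : ℝ) ≤ 1 / 2 := fun s hs => by
    have := Real.rpow_le_rpow_of_exponent_ge (x := T - s) (y := 3 / 2) (z := 1)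
      (by linarith [hs.2]) (by linarith [hs.1]) (by norm_num)
    rw [Real.rpow_one] at this
    linarith [hs.1]
  have main := mpP (σ := 1) (g := fun _ => 7 / 4) (g' := fun _ => 0) h he.le hT hxs
    (fun s => hasDerivAt_const s _) hz
    (fun x a b => by
      have := hs2 0 ⟨le_rfl, ht⟩
      rw [sub_zero] at this
      linarith [h0 x a b])
    (fun s hs => by linarith [hr s hs, hs2 s hs]) fun s hs x a b e0 => by
      have hw := h.pos s x hs ⟨a, le_xs hy hxs hs.1 b⟩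
      obtain ⟨b1, -, b3, b4⟩ := hb s hs x a b
      have t3 := hτ s hs
      obtain ⟨b5, b6⟩ := rx_bd a (by linarith) b3 b4
      have e1 : w 1 s x = 7 / 4 := by linarith
      have m1 : x < (T - s) ^ 3 / 3 := by
        rcases a.eq_or_lt with u | u
        · linarith
        · exact small_x (by linarith [hs.2]) (by linarith [hs.1]) u
            (by linarith [hD s hs x u b])
      have m2 : 0 < 1 - x / w 0 s x * (7 / 4) := by
        rw [sub_pos, div_mul_eq_mul_div, div_lt_one hw]; linarith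
      have m3 : w 0 s x * -(k 0 s x + x * k 1 s x) - (1 - x * k 0 s x) * (7 / 4) < 0 := by
        linarith [(abs_le.1 b5).2, (abs_le.1 b6).2]
      rw [cP, e1]
      exact mul_neg_of_neg_of_pos (div_neg_of_neg_of_pos
        (mul_neg_of_pos_of_neg (by positivity) m3) hw) (by norm_num)
  intro s hs x a b
  linarith [main s hs x a b]

theorem out_pre {X s x : ℝ} (ho : Out.Out T X w s) (hs : s < T) (hX : X ≤ 1 / 4)
    (hx : x ∈ Icc ((T - s) / 200) X) :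
    x ≤ 2 * w 0 s x ∧ |w 1 s x - 1| ≤ 1 / 2 ∧ |w 1 s x - 1| ≤ x ^ (3 / 2 : ℝ) := by
  have h0 : 0 < x := by linarith [hx.1]
  have h1 : x ≤ 1 := by linarith [hx.2]
  obtain ⟨a, b, -⟩ := ho.1 x hx
  have c1 := Real.rpow_le_rpow_of_exponent_ge (y := 11 / 4) (z := 2) h0 h1 (by norm_num)
  have c2 := Real.rpow_le_rpow_of_exponent_ge (y := 7 / 4) (z := 1) h0 h1 (by norm_num)
  have c3 := Real.rpow_le_rpow_of_exponent_ge (y := 7 / 4) (z := 3 / 2) h0 h1 (by norm_num)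
  rw [Real.rpow_two] at c1
  rw [Real.rpow_one] at c2
  exact ⟨by nlinarith [(abs_le.1 a).1, hx.2], by linarith [hx.2], b.trans c3⟩

/-- **I1 (d)**. -/
theorem preStmt : PreStmt := by
  intro C hC
  refine ⟨1 / (1000 * C), 1 / 4, by positivity, by norm_num, fun X hX0 hX => ⟨min X (1 / 100),
    by positivity, ?_⟩⟩
  intro e t T xs w wt k kt he he0 hxs h ht hT hT1 hd hz ho hrx
  have hy : (0 : ℝ) < 1 / 200 := by norm_num
  have t1 : T ≤ X := hT1.trans (min_le_left _ _)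
  have t2 : T ≤ 1 / 100 := hT1.trans (min_le_right _ _)
  have hCe : C * e ≤ 1 / 1000 := by
    rw [le_div_iff₀ (by positivity)] at he0; linarith
  have he1 : e ≤ 1 / 1000 := by nlinarith
  have hxs' : 1 / 200 * (T - 0) ≤ xs := by linarith
  have ey : ∀ s, 1 / 200 * (T - s) = (T - s) / 200 := fun s => by ring
  have hop : ∀ s ∈ Icc 0 t, _ := fun s hs => out_pre (ho s hs) (hs.2.trans_lt hT) hX
    (x := (T - s) / 200) ⟨le_rfl, by linarith [hs.1]⟩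
  have hW := lowW h he.le hT hy hxs' (c := 1 / 4) (by norm_num)
    (fun s x hs a b => (hz s hs x ⟨a, le_xs hy hxs' hs.1 b⟩).le)
    (fun x a b => by rw [sub_zero]; linarith [(hd.1 x ⟨a, by linarith⟩).1])
    (fun s hs => by rw [ey]; linarith [(ho s hs).2.1])
  have hP := posP h he.le hT hxs' hz
    (fun x a b => by linarith [(abs_le.1 (hd.1 x ⟨a, by linarith⟩).2.1).1])
    (fun s hs => by rw [ey]; linarith [(abs_le.1 (hop s hs).2.1).1])
  have pre : ∀ s ∈ Icc 0 t, (∀ x, 0 ≤ x → x ≤ 1 / 200 * (T - s) → w 1 s x - 2 ≤ 0) →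
      Pre X w s := fun s hs h2 x hx => by
    rcases le_total x (1 / 200 * (T - s)) with u | u
    · have := pow_pos (show 0 < T - s by linarith [hs.2]) 3
      refine ⟨by linarith [hW s x hs hx.1 u, hx.1], abs_le.2 ⟨?_, ?_⟩⟩
      · linarith [hP s hs x hx.1 u]
      · linarith [h2 x hx.1 u]
    · obtain ⟨a, b, -⟩ := out_pre (ho s hs) (hs.2.trans_lt hT) hX ⟨by linarith, hx.2⟩
      exact ⟨a, abs_le.2 ⟨by linarith [(abs_le.1 b).1], by linarith [(abs_le.1 b).2]⟩⟩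
  have main := neg_of_no_touch (ι := Unit) (l := fun _ => 0) (r := fun s => 1 / 200 * (T - s))
    (t0 := 0) (t1 := t) continuousOn_const (by fun_prop) (fun _ s x => w 1 s x - 2)
    (fun _ => ((h.jw.cu 1).mono (reg_sub hy hxs')).sub continuousOn_const)
    (fun _ x a b => by linarith [(abs_le.1 (hd.1 x ⟨a, by linarith⟩).2.1).2])
    (fun _ u x a b c d e0 hp => ?_) fun s _ b => mul_pos hy (by linarith)
  · exact fun s hs => pre s hs fun x a b => (main () s x hs.1 hs.2 a b).le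
  · have hsub : Icc 0 u ⊆ Icc 0 t := Icc_subset_Icc le_rfl b
    have hr := hrx u ⟨a.le, b⟩ fun s hs => pre s (hsub hs) fun y a b => hp () s y hs.1 hs.2 a b
    have := upP (h.mono le_rfl b) he he1 a.le (b.trans_lt hT) t2 hxs' (fun s hs => hz s (hsub hs))
      (fun s hs y a b => by
        have r := hr s hs y ⟨a, by linarith [hs.1]⟩
        have r0 := (r 0 (by norm_num)).2
        have r1 := (r 1 (by norm_num)).2
        rw [zero_add, pow_one] at r0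
        exact ⟨hW s y (hsub hs) a b, by linarith [hp () s y hs.1 hs.2 a b], by linarith,
          by linarith⟩)
      (fun y a b => (hd.1 y ⟨a, by linarith⟩).2.2)
      (fun s hs => by
        rw [ey]
        have h1 : 0 < T - s := by linarith [(hsub hs).2]
        exact ((le_abs_self _).trans (hop s (hsub hs)).2.2).trans
          (Real.rpow_le_rpow (by linarith) (by linarith) (by norm_num))) u ⟨a.le, le_rfl⟩ x c d
    linarith

end Crest.Agent.N207.S.I1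
end

-- ▼ part N207/S/In/Alg
section

/-!
Row 207 (S0320): pointwise inequalities for the curvature system under the first regularity bounds.
-/

set_option autoImplicit false

open Set

namespace Crest.Agent.N207.S.In

noncomputable section

abbrev V6 := ℝ × ℝ × ℝ × ℝ × ℝ × ℝ

def nz (v : V6) : ℝ := 1 - v.1 * v.2.2.2.2.2 * v.2.2.2.1
def nL (v : V6) : ℝ := v.2.2.2.1 + v.2.2.2.2.2 * v.2.2.2.2.1
def nU (v : V6) : ℝ := v.2.2.2.2.2 * nz v * v.2.1 ^ 2 / 2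
def nS (v : V6) : ℝ :=
  nU v - (v.2.2.2.2.2 * nz v * v.2.2.1 + (nz v - v.1 * v.2.2.2.2.2 * nL v) * v.2.1 / 2)
def nA (v : V6) : ℝ := v.1 * nS v + 1 / 2 - v.1 * nU v - (1 + v.1) * nz v * v.2.1 / 2
def nB (v : V6) : ℝ := v.1 * nL v / 2 + v.2.2.2.1 / 2 - nz v * v.2.1
def nC (v : V6) : ℝ := 2 * nS v + (1 + v.1) * nL v / 2
def nAH (v : V6) : ℝ := (1 + 2 * v.1) * nA v - (1 + v.1) * v.1 * nB v - v.1 ^ 2 * nC v
def nCH (v : V6) : ℝ :=
  (1 + 3 * v.1) * v.1 * nC v - 2 * v.1 * nA v - (1 + v.1) * v.1 * nB v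
def nR (v : V6) : ℝ := 2 * nA v + (1 + v.1) * nB v + v.1 * nC v
def nD (v : V6) : ℝ := (1 + v.1) * (1 + 4 * v.1) ^ 2
def nQ (v : V6) : ℝ := (1 + v.1) * 2 * nAH v + v.1 * (4 * nAH v + 4 * nCH v)
def g1 (v : V6) : ℝ :=
  nD v * (-4 * nU v + 2 * nz v * v.2.1) + 2 * (1 + v.1) * (1 + 4 * v.1) * nR v - 2 * nQ v
def g2 (v : V6) : ℝ :=
  nD v * (2 * nU v + nz v * v.2.1 + 2 * nS v) - 2 * (1 + 2 * v.1) * nCH v
def g3 (v : V6) : ℝ :=
  nD v * (4 * v.2.2.2.2.2 * (nU v + nS v - v.1 * nL v / 2) - 2 * nz v) - 2 * v.2.2.2.2.2 * nQ v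
def g4 (v : V6) : ℝ :=
  nD v * (v.2.2.2.2.2 * (-4 * nU v - v.1 * nL v) - 2 + (1 + 2 * v.1) * v.2.2.2.2.2 * v.2.2.2.1) +
    v.2.2.2.2.2 * (2 * (1 + v.1) * (1 + 4 * v.1) * nR v - 2 * (1 + 2 * v.1) * nCH v)
/-- All the normalised quantities that have to be bounded. -/
def gAll (v : V6) : ℝ :=
  |g1 v| + |g2 v| + |g3 v| + |g4 v| + |nAH v| + |nCH v| + |nR v| + |nU v| +
    |v.2.2.2.2.2 * v.2.2.2.1| + |v.2.2.2.2.2 * v.2.1| + |v.2.2.2.2.2 * nL v|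

theorem continuous_gAll : Continuous gAll := by
  unfold gAll g1 g2 g3 g4 nQ nD nR nCH nAH nC nB nA nS nU nL nz
  fun_prop

theorem exists_bd (C0 : ℝ) : ∃ C : ℝ, 1 ≤ C ∧ ∀ e P p κ0 κ1 ξ : ℝ, 0 ≤ e → e ≤ 1 → |P| ≤ C0 →
    |p| ≤ C0 → |κ0| ≤ C0 → |κ1| ≤ C0 → 0 ≤ ξ → ξ ≤ 2 → gAll (e, P, p, κ0, κ1, ξ) ≤ C := by
  have hK : IsCompact (Icc (0 : ℝ) 1 ×ˢ Icc (-C0) C0 ×ˢ Icc (-C0) C0 ×ˢ Icc (-C0) C0 ×ˢ
      Icc (-C0) C0 ×ˢ Icc (0 : ℝ) 2) :=
    isCompact_Icc.prod (isCompact_Icc.prod (isCompact_Icc.prod (isCompact_Icc.prod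
      (isCompact_Icc.prod isCompact_Icc))))
  obtain ⟨C, hC⟩ := (hK.image continuous_gAll).bddAbove
  refine ⟨max C 1, le_max_right _ _, fun e P p κ0 κ1 ξ a1 a2 a3 a4 a5 a6 a7 a8 => ?_⟩
  exact (hC ⟨_, ⟨⟨a1, a2⟩, abs_le.1 a3, abs_le.1 a4, abs_le.1 a5, abs_le.1 a6, a7, a8⟩,
    rfl⟩).trans (le_max_left _ _)

theorem gAll_bds {v : V6} {C : ℝ} (h : gAll v ≤ C) : |g1 v| ≤ C ∧ |g2 v| ≤ C ∧ |g3 v| ≤ C ∧
    |g4 v| ≤ C ∧ |nAH v| ≤ C ∧ |nCH v| ≤ C ∧ |nR v| ≤ C ∧ |nU v| ≤ C ∧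
    |v.2.2.2.2.2 * v.2.2.2.1| ≤ C ∧ |v.2.2.2.2.2 * v.2.1| ≤ C ∧ |v.2.2.2.2.2 * nL v| ≤ C := by
  unfold gAll at h
  have n1 := abs_nonneg (g1 v)
  have n2 := abs_nonneg (g2 v)
  have n3 := abs_nonneg (g3 v)
  have n4 := abs_nonneg (g4 v)
  have n5 := abs_nonneg (nAH v)
  have n6 := abs_nonneg (nCH v)
  have n7 := abs_nonneg (nR v)
  have n8 := abs_nonneg (nU v)
  have n9 := abs_nonneg (v.2.2.2.2.2 * v.2.2.2.1)
  have n10 := abs_nonneg (v.2.2.2.2.2 * v.2.1)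
  have n11 := abs_nonneg (v.2.2.2.2.2 * nL v)
  refine ⟨?_, ?_, ?_, ?_, ?_, ?_, ?_, ?_, ?_, ?_, ?_⟩ <;> linarith

theorem exists_norm {C0 e x w0 w2 k0 k1 : ℝ} (he : 0 < e) (hw : 0 < w0) (hx : 0 ≤ x)
    (h2 : |w0 * w2| ≤ C0) (h3 : |w0 * k0| ≤ C0 * e) (h4 : |w0 ^ 2 * k1| ≤ C0 * e)
    (h5 : x ≤ 2 * w0) : ∃ p κ0 κ1 ξ : ℝ, |p| ≤ C0 ∧ |κ0| ≤ C0 ∧ |κ1| ≤ C0 ∧ 0 ≤ ξ ∧ ξ ≤ 2 ∧
      x = ξ * w0 ∧ w2 = p / w0 ∧ k0 = e * κ0 / w0 ∧ k1 = e * κ1 / w0 ^ 2 := by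
  refine ⟨w0 * w2, w0 * k0 / e, w0 ^ 2 * k1 / e, x / w0, h2, ?_, ?_, by positivity, ?_,
    by field_simp, by field_simp, by field_simp, by field_simp⟩
  · rw [abs_div, abs_of_pos he, div_le_iff₀ he]; exact h3
  · rw [abs_div, abs_of_pos he, div_le_iff₀ he]; exact h4
  · rw [div_le_iff₀ hw]; exact h5

section norm
variable {e w0 P p κ0 κ1 ξ : ℝ}

theorem kSF_n (hw : w0 ≠ 0) : kSF e (ξ * w0) w0 P (p / w0) (e * κ0 / w0) (e * κ1 / w0 ^ 2) =
    e * nS (e, P, p, κ0, κ1, ξ) / w0 := by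
  simp only [kSF, nS, nU, nL, nz]; field_simp; ring

theorem ricA_n (hw : w0 ≠ 0) : ricA e (ξ * w0) w0 P (p / w0) (e * κ0 / w0) (e * κ1 / w0 ^ 2) =
    nA (e, P, p, κ0, κ1, ξ) / w0 := by
  simp only [ricA, kSF_n hw, nA, nU, nz]; field_simp; ring

theorem ricB_n (hw : w0 ≠ 0) : ricB e (ξ * w0) w0 P (e * κ0 / w0) (e * κ1 / w0 ^ 2) =
    e * nB (e, P, p, κ0, κ1, ξ) / w0 := by
  simp only [ricB, nB, nL, nz]; field_simp

theorem ricC_n (hw : w0 ≠ 0) : ricC e (ξ * w0) w0 P (p / w0) (e * κ0 / w0) (e * κ1 / w0 ^ 2) =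
    e * nC (e, P, p, κ0, κ1, ξ) / w0 := by
  simp only [ricC, kSF_n hw, nC, nL]; field_simp

theorem aH_n (hw : w0 ≠ 0) : aH e (ξ * w0) w0 P (p / w0) (e * κ0 / w0) (e * κ1 / w0 ^ 2) =
    nAH (e, P, p, κ0, κ1, ξ) / w0 := by
  simp only [aH, ricA_n hw, ricB_n (p := p) hw, ricC_n hw, nAH]; field_simp

theorem cH_n (hw : w0 ≠ 0) : cH e (ξ * w0) w0 P (p / w0) (e * κ0 / w0) (e * κ1 / w0 ^ 2) =
    nCH (e, P, p, κ0, κ1, ξ) / w0 := by
  simp only [cH, ricA_n hw, ricB_n (p := p) hw, ricC_n hw, nCH]; field_simp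

theorem rE_n (hw : w0 ≠ 0) : rE e (ξ * w0) w0 P (p / w0) (e * κ0 / w0) (e * κ1 / w0 ^ 2) =
    e * nR (e, P, p, κ0, κ1, ξ) / w0 := by
  simp only [rE, ricA_n hw, ricB_n (p := p) hw, ricC_n hw, nR]; field_simp

end norm

theorem lin_bd {D e C g g' a c X : ℝ} (hD : 1 ≤ D) (he : 0 ≤ e) (hg : |g| ≤ C) (hg' : |g'| ≤ C)
    (h : D * X = e * (g * a + g' * c)) : |X| ≤ C * e * (|a| + |c|) := by
  have h1 : |X| ≤ |D * X| := by
    rw [abs_mul, abs_of_pos (by linarith : 0 < D)]; nlinarith [abs_nonneg X]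
  have h2 : |g * a + g' * c| ≤ C * (|a| + |c|) := by
    refine (abs_add_le _ _).trans ?_
    rw [abs_mul, abs_mul]
    nlinarith [abs_nonneg a, abs_nonneg c]
  rw [h, abs_mul, abs_of_nonneg he] at h1
  nlinarith

/-- The pointwise facts, with smallness parameter `η` and size constant `C`. -/
structure Good (η C e x w0 w1 w2 k0 k1 BA BC BR : ℝ) : Prop where
  hA : |w0 * BA - aH e x w0 w1 w2 k0 k1| ≤
    η * (|aH e x w0 w1 w2 k0 k1| + |cH e x w0 w1 w2 k0 k1|)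
  hC : |x * BC + cH e x w0 w1 w2 k0 k1| ≤
    η * (|aH e x w0 w1 w2 k0 k1| + |cH e x w0 w1 w2 k0 k1|)
  hR0 : 0 ≤ BR
  hR1 : BR ≤ aH e x w0 w1 w2 k0 k1 ^ 2 + cH e x w0 w1 w2 k0 k1 ^ 2 +
    2 * rE e x w0 w1 w2 k0 k1 ^ 2
  bA : w0 * |aH e x w0 w1 w2 k0 k1| ≤ C
  bC : w0 * |cH e x w0 w1 w2 k0 k1| ≤ C
  bR : w0 * |rE e x w0 w1 w2 k0 k1| ≤ η
  hk : |x * k0| ≤ η
  hk1 : |x * (k0 + x * k1)| ≤ η
  hZ : 2 * e * x * (1 - x * k0) * w1 ^ 2 ≤ η * w0
  hP : e * |x * w1| ≤ η * w0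
  he : e ≤ η

theorem ric_sq {e a b c : ℝ} (he : 0 ≤ e) (he1 : e ≤ 1 / 10) :
    2 * (2 * e * a ^ 2 + (1 + e) * b ^ 2 + e * c ^ 2) ≤
      ((1 + 2 * e) * a - (1 + e) * b - e * c) ^ 2 + ((1 + 3 * e) * c - 2 * e * a - (1 + e) * b) ^ 2
        + 2 * (2 * e * a + (1 + e) * b + e * c) ^ 2 := by
  set A := (1 + 2 * e) * a - (1 + e) * b - e * c with hA
  set C := (1 + 3 * e) * c - 2 * e * a - (1 + e) * b with hC
  set R := 2 * e * a + (1 + e) * b + e * c with hR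
  have hD : 1 ≤ (1 + e) * (1 + 4 * e) ^ 2 := by nlinarith [mul_nonneg he he]
  have key : (1 + e) * (1 + 4 * e) ^ 2 * (2 * (2 * e * a ^ 2 + (1 + e) * b ^ 2 + e * c ^ 2)) =
      2 * e * qq e A C + 2 * (1 + e) * (1 + 4 * e) * R ^ 2 := by
    simp only [qq, hA, hC, hR]; ring
  have h1 : 2 * e * qq e A C ≤ A ^ 2 + C ^ 2 := by
    have : qq e A C ≤ 4 * (A ^ 2 + C ^ 2) := by
      simp only [qq]
      nlinarith [sq_nonneg A, sq_nonneg C, sq_nonneg (A - 2 * C), mul_nonneg he (sq_nonneg A),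
        mul_nonneg he (sq_nonneg C), mul_nonneg he (sq_nonneg (A - 2 * C))]
    nlinarith [sq_nonneg A, sq_nonneg C]
  have h2 : 2 * (1 + e) * (1 + 4 * e) * R ^ 2 ≤ (1 + e) * (1 + 4 * e) ^ 2 * (2 * R ^ 2) := by
    have : 0 ≤ (1 + e) * (1 + 4 * e) * R ^ 2 := by positivity
    nlinarith
  have h3 : A ^ 2 + C ^ 2 ≤ (1 + e) * (1 + 4 * e) ^ 2 * (A ^ 2 + C ^ 2) := by
    nlinarith [sq_nonneg A, sq_nonneg C]
  have h4 : (1 + e) * (1 + 4 * e) ^ 2 * (2 * (2 * e * a ^ 2 + (1 + e) * b ^ 2 + e * c ^ 2)) ≤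
      (1 + e) * (1 + 4 * e) ^ 2 * (A ^ 2 + C ^ 2 + 2 * R ^ 2) := by
    rw [key]; nlinarith
  exact le_of_mul_le_mul_left h4 (by linarith)

theorem exists_good (C0 η : ℝ) (hη : 0 < η) : ∃ e0 C : ℝ, 0 < e0 ∧ 1 ≤ C ∧
    ∀ {e t0 t1 xs : ℝ} {w wt k kt : ℕ → ℝ → ℝ → ℝ}, 0 < e → e ≤ e0 → 0 < xs →
      XSol e t0 t1 xs w wt k kt → Reg1 C0 e t0 t1 xs w k → ∀ t x, t ∈ Icc t0 t1 → x ∈ Icc 0 xs →
        Good η C e x (w 0 t x) (w 1 t x) (w 2 t x) (k 0 t x) (k 1 t x)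
          (box e w wt k kt (xAH e) t x) (box e w wt k kt (xCH e) t x)
          (box e w wt k kt (xRE e) t x) := by
  obtain ⟨C, hC1, hC⟩ := exists_bd C0
  refine ⟨min (1 / 10) (η / (4 * C)), C, by positivity, hC1, ?_⟩
  intro e t0 t1 xs w wt k kt he hee hxs h hR t x ht hx
  have he1 : e ≤ 1 / 10 := hee.trans (min_le_left _ _)
  have he2 : 4 * C * e ≤ η := by
    have := hee.trans (min_le_right _ _)
    rw [le_div_iff₀ (by positivity)] at this; linarith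
  have hA := box_aH h hxs ht hx
  have hCc := box_cH h hxs ht hx
  have hRr := box_rE h hxs ht hx
  have hU : ev (env w k t x) (xU e) =
      e / 2 * x * (1 - x * k 0 t x) * w 1 t x ^ 2 * (w 0 t x)⁻¹ ^ 2 := by
    simp only [xU, xZ, ev_sub, ev_mul, ev_v, ev_c, env]; ring
  rw [ev_xAH, ev_xCH, ev_xRE, ev_xS, hU] at hA hCc
  rw [ev_xA, ev_xB, ev_xC] at hRr
  obtain ⟨r1, r2, r3, r4, r5⟩ := hR t x ht hx
  have hw := h.pos t x ht hx
  generalize box e w wt k kt (xAH e) t x = BA at *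
  generalize box e w wt k kt (xCH e) t x = BC at *
  generalize box e w wt k kt (xRE e) t x = BR at *
  generalize w 0 t x = w0 at *
  generalize w 1 t x = P at *
  generalize w 2 t x = w2 at *
  generalize k 0 t x = k0 at *
  generalize k 1 t x = k1 at *
  obtain ⟨p, κ0, κ1, ξ, s1, s2, s3, s4, s5, rfl, rfl, rfl, rfl⟩ :=
    exists_norm he hw hx.1 r2 r3 r4 r5
  have hb := hC e P p κ0 κ1 ξ he.le (by linarith) r1 s1 s2 s3 s4 s5
  have hw' := hw.ne'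
  obtain ⟨n1, n2, n3, n4, n5, n6, n7, n8, n9, n10, n11⟩ := gAll_bds hb
  have hD : 1 ≤ (1 + e) * (1 + 4 * e) ^ 2 :=
    one_le_mul_of_one_le_of_one_le (by linarith) (one_le_pow₀ (by linarith))
  have hCe0 : 0 ≤ C * e := by positivity
  have hCe : C * e ≤ η := by linarith
  have habs : ∀ a c : ℝ, C * e * (|a| + |c|) ≤ η * (|a| + |c|) := fun a c =>
    mul_le_mul_of_nonneg_right hCe (by positivity)
  have hm : ∀ g : ℝ, g ≤ C → e * g ≤ C * e := fun g hg => by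
    rw [mul_comm C e]; exact mul_le_mul_of_nonneg_left hg he.le
  refine ⟨?_, ?_, ?_, ?_, ?_, ?_, ?_, ?_, ?_, ?_, ?_, by linarith [hm 1 hC1]⟩
  · refine (lin_bd (g := g1 (e, P, p, κ0, κ1, ξ)) (g' := g2 (e, P, p, κ0, κ1, ξ)) hD he.le
      n1 n2 ?_).trans (habs _ _)
    have : (1 + e) * (1 + 4 * e) ^ 2 * (w0 * BA) = w0 * ((1 + e) * (1 + 4 * e) ^ 2 * BA) := by ring
    rw [mul_sub, this, hA, aH_n hw', cH_n hw', rE_n hw', kSF_n hw']
    simp only [qq, g1, g2, nQ, nD, nU, nz]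
    field_simp
    ring
  · refine (lin_bd (g := g3 (e, P, p, κ0, κ1, ξ)) (g' := g4 (e, P, p, κ0, κ1, ξ)) hD he.le
      n3 n4 ?_).trans (habs _ _)
    rw [mul_add, hCc, aH_n hw', cH_n hw', rE_n hw', kSF_n hw']
    simp only [qq, g3, g4, nQ, nD, nU, nz, nL]
    field_simp
    ring
  · rw [hRr]; positivity
  · rw [hRr]; exact ric_sq he.le he1
  · rw [aH_n hw', abs_div, abs_of_pos hw, mul_div_cancel₀ _ hw']; exact n5
  · rw [cH_n hw', abs_div, abs_of_pos hw, mul_div_cancel₀ _ hw']; exact n6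
  · rw [rE_n hw', abs_div, abs_of_pos hw, mul_div_cancel₀ _ hw', abs_mul, abs_of_pos he]
    exact (hm _ n7).trans hCe
  · have : ξ * w0 * (e * κ0 / w0) = e * (ξ * κ0) := by field_simp
    rw [this, abs_mul, abs_of_pos he]; exact (hm _ n9).trans hCe
  · have : ξ * w0 * (e * κ0 / w0 + ξ * w0 * (e * κ1 / w0 ^ 2)) =
        e * (ξ * nL (e, P, p, κ0, κ1, ξ)) := by simp only [nL]; field_simp
    rw [this, abs_mul, abs_of_pos he]; exact (hm _ n11).trans hCe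
  · have : 2 * e * (ξ * w0) * (1 - ξ * w0 * (e * κ0 / w0)) * P ^ 2 =
        4 * e * nU (e, P, p, κ0, κ1, ξ) * w0 := by simp only [nU, nz]; field_simp; ring
    rw [this]
    refine mul_le_mul_of_nonneg_right ?_ hw.le
    linarith [hm _ ((le_abs_self (nU (e, P, p, κ0, κ1, ξ))).trans n8)]
  · have : ξ * w0 * P = ξ * P * w0 := by ring
    rw [this, abs_mul, abs_of_pos hw, ← mul_assoc]
    exact mul_le_mul_of_nonneg_right ((hm _ n10).trans hCe) hw.le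

end

end Crest.Agent.N207.S.In
end

-- ▼ part N207/S/In/Bar
section

/-!
Row 207 (S0320): barriers `K₁ τ^p w^γ + K₂ w^δ + G(t)` at a touching point, and the arithmetic of
the barriers in terms of eighth roots.
-/

set_option autoImplicit false

open Set

namespace Crest.Agent.N207.S.In

noncomputable section

variable {e t0 t1 xs : ℝ} {w wt k kt : ℕ → ℝ → ℝ → ℝ}

/-- The barrier. -/
def bar (T K1 p γ K2 δ : ℝ) (G : ℝ → ℝ) (w : ℝ → ℝ → ℝ) (t x : ℝ) : ℝ :=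
  K1 * ((T - t) ^ p * w t x ^ γ) + K2 * w t x ^ δ + G t

theorem hasDerivAt_tau {T t : ℝ} (p : ℝ) (h : t < T) :
    HasDerivAt (fun s => (T - s) ^ p) (-(p * (T - t) ^ p / (T - t))) t := by
  have h0 : T - t ≠ 0 := (sub_pos.2 h).ne'
  have := ((hasDerivAt_id t).const_sub T).rpow_const (p := p) (Or.inl h0)
  refine HasDerivAt.congr_deriv this ?_
  simp only [id]
  rw [Real.rpow_sub_one h0]; ring

theorem continuousOn_bar (h : XSol e t0 t1 xs w wt k kt) {T : ℝ} (hT : t1 < T)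
    (K1 p γ K2 δ : ℝ) {G G' : ℝ → ℝ} (hG : ∀ t ∈ Icc t0 t1, HasDerivAt G (G' t) t) :
    ContinuousOn (fun q : ℝ × ℝ => bar T K1 p γ K2 δ G (w 0) q.1 q.2) (Icc t0 t1 ×ˢ Icc 0 xs) :=
  ((((((h.jw.pk 0).rpow γ h.pos).tmul (fun _ ht => hasDerivAt_tau p (ht.2.trans_lt hT))).cmul
    K1).add (((h.jw.pk 0).rpow δ h.pos).cmul K2)).add (Pk.time hG)).cont

theorem touch_bar (h : XSol e t0 t1 xs w wt k kt) (he : 0 ≤ e) {T : ℝ} (hT : t1 < T)
    (K1 p γ K2 δ σ : ℝ) {G G' : ℝ → ℝ} (hG : ∀ t ∈ Icc t0 t1, HasDerivAt G (G' t) t) (E : Ex)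
    {r : ℝ → ℝ} (hr : ContinuousOn r (Icc t0 t1)) (hrs : ∀ s ∈ Icc t0 t1, r s ≤ xs) {t x : ℝ}
    (h0 : t0 < t) (h1 : t ≤ t1) (hx0 : 0 ≤ x) (hx1 : x < r t) (hzz : 0 ≤ 1 - x * k 0 t x)
    (hz : σ * ev (env w k t x) E - bar T K1 p γ K2 δ G (w 0) t x = 0)
    (hp : ∀ s y, t0 ≤ s → s ≤ t → 0 ≤ y → y ≤ r s →
      σ * ev (env w k s y) E - bar T K1 p γ K2 δ G (w 0) s y ≤ 0) :
    K1 * ((T - t) ^ p * w 0 t x ^ γ) * (-(p / (T - t)) -
        (γ + γ ^ 2 * (2 * e * x * (1 - x * k 0 t x) * w 1 t x ^ 2 / w 0 t x)) / w 0 t x) -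
      K2 * w 0 t x ^ δ *
        ((δ + δ ^ 2 * (2 * e * x * (1 - x * k 0 t x) * w 1 t x ^ 2 / w 0 t x)) / w 0 t x) +
      G' t ≤ σ * box e w wt k kt E t x := by
  have hB := ((((((h.jw.pk 0).rpow γ h.pos).tmul
    (fun t ht => hasDerivAt_tau p (ht.2.trans_lt hT))).cmul
    K1).add (((h.jw.pk 0).rpow δ h.pos).cmul K2)).add (Pk.time hG))
  have hF := ((Pk.ev (pk_env h) E).cmul σ).sub hB
  have hm : t ∈ Icc t0 t1 := ⟨h0.le, h1⟩
  have hxm : x ∈ Icc 0 xs := ⟨hx0, hx1.le.trans (hrs t hm)⟩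
  have := hF.touch hr hrs (Z := 2 * e * x * (1 - x * k 0 t x))
    (β := 1 + 2 * e * (1 - x * k 0 t x)) h0 h1 hx0 hx1 hz hp (by positivity)
    (fun h => by rw [h]; ring) (by positivity)
  rw [h.eqW t x hm hxm] at this
  have hw := (h.pos t x hm hxm).ne'
  have hτ : T - t ≠ 0 := (sub_pos.2 (h1.trans_lt hT)).ne'
  rw [← sub_nonneg]
  refine this.trans_eq ?_
  simp only [box, rhsW, zero_add]
  field_simp
  ring

/-! ### eighth roots -/

theorem rt8 {w : ℝ} (hw : 0 < w) : ∃ u : ℝ, 0 < u ∧ w = u ^ 8 ∧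
    (∀ n : ℕ, w ^ ((n : ℝ) / 8) = u ^ n) ∧ ∀ n : ℕ, w ^ (-((n : ℝ) / 8)) = (u ^ n)⁻¹ := by
  have h : ∀ n : ℕ, w ^ ((n : ℝ) / 8) = (w ^ (1 / 8 : ℝ)) ^ n := fun n => by
    rw [← Real.rpow_natCast, ← Real.rpow_mul hw.le]; congr 1; ring
  refine ⟨w ^ (1 / 8 : ℝ), by positivity, ?_, h, fun n => by rw [Real.rpow_neg hw.le, h]⟩
  rw [← h 8]; norm_num

theorem rt8' {w : ℝ} (hw : 0 < w) : ∃ u : ℝ, 0 < u ∧ w = u ^ 8 ∧ w ^ (3 / 4 : ℝ) = u ^ 6 ∧
    w ^ (-(9 / 8) : ℝ) = (u ^ 9)⁻¹ ∧ w ^ (-(5 / 4) : ℝ) = (u ^ 10)⁻¹ ∧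
    w ^ (-(1 / 8) : ℝ) = u⁻¹ ∧ w ^ (15 / 8 : ℝ) = u ^ 15 ∧ w ^ (15 / 4 : ℝ) = u ^ 30 ∧
    w ^ (1 / 4 : ℝ) = u ^ 2 := by
  obtain ⟨u, h0, h1, h2, h3⟩ := rt8 hw
  refine ⟨u, h0, h1, ?_, ?_, ?_, ?_, ?_, ?_, ?_⟩
  · rw [← h2 6]; norm_num
  · rw [← h3 9]; norm_num
  · rw [← h3 10]; norm_num
  · have := h3 1
    rw [pow_one] at this
    rw [← this]; norm_num
  · rw [← h2 15]; norm_num
  · rw [← h2 30]; norm_num
  · rw [← h2 2]; norm_num

theorem le_of_pow8 {s u a : ℝ} (hu : 0 ≤ u) (ha : 0 ≤ a) (h : s ^ 8 ≤ a ^ 8 * u ^ 8) :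
    s ≤ a * u := by
  rw [← mul_pow] at h
  exact le_of_pow_le_pow_left₀ (by norm_num) (by positivity) h

theorem S2_le_B {u s : ℝ} (hu : 0 < u) (h : u ^ 8 ≤ s ^ 8) (hs : 0 < s) :
    u ^ 6 ≤ s ^ 15 * (u ^ 9)⁻¹ := by
  have h1 : u ≤ s := by simpa using le_of_pow8 (a := 1) hs.le zero_le_one (by simpa using h)
  rw [← div_eq_mul_inv, le_div_iff₀ (by positivity)]
  calc u ^ 6 * u ^ 9 = u ^ 15 := by ring
    _ ≤ s ^ 15 := pow_le_pow_left₀ hu.le h1 15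

/-- Interior touching of the barrier for `a`. -/
theorem a_touch {η w τ ζ B σ a c BA : ℝ} (hη : η ≤ 1 / 1000) (hw : 0 < w) (hτ : 60 * w ≤ τ)
    (hζ : ζ ≤ η) (hB : 0 < B) (hσ : |σ| = 1) (ha : σ * a = B) (hc : |c| ≤ 2 * B)
    (hA : |w * BA - a| ≤ η * (|a| + |c|)) (hη0 : 0 ≤ η)
    (ht : B * (-(15 / 8 / τ) - (-(9 / 8) + (-(9 / 8)) ^ 2 * ζ) / w) ≤ σ * BA) : False := by
  have hτ0 : 0 < τ := by linarith
  have h1 : |a| = B := by rw [← ha, ← abs_of_pos (ha ▸ hB : 0 < σ * a), abs_mul, hσ, one_mul]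
  have h2 : σ * (w * BA - a) ≤ 3 * η * B := by
    refine (le_abs_self _).trans ?_
    rw [abs_mul, hσ, one_mul]
    refine hA.trans ?_
    rw [h1]; nlinarith
  have h3 : 15 / 8 / τ * w ≤ 1 / 32 := by
    rw [div_mul_eq_mul_div, div_le_iff₀ hτ0]; linarith
  have h4 := mul_le_mul_of_nonneg_left ht hw.le
  have h5 : w * (B * (-(15 / 8 / τ) - (-(9 / 8) + (-(9 / 8)) ^ 2 * ζ) / w)) =
      B * (-(15 / 8 / τ * w) + 9 / 8 - 81 / 64 * ζ) := by field_simp; ring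
  rw [h5] at h4
  have h6 : B * (1 + 3 * η) < B * (-(15 / 8 / τ * w) + 9 / 8 - 81 / 64 * ζ) :=
    mul_lt_mul_of_pos_left (by linarith) hB
  nlinarith

/-- Touching of the barrier for `c`. -/
theorem c_touch {η u s x ζ K σ a c BC : ℝ} (hη : η ≤ 1 / 1000) (hu : 0 < u) (hs : 0 < s)
    (hx0 : 0 ≤ x) (hx : 9 * x ≤ 10 * u ^ 8) (hζ0 : 0 ≤ ζ) (hζ : ζ ≤ η) (hK : 0 < K)
    (hσ : |σ| = 1) (hc : σ * c = K / 100 * (s ^ 15 * (u ^ 9)⁻¹) + K * u ^ 6)
    (ha : |a| ≤ 2 * (K * (s ^ 15 * (u ^ 9)⁻¹)) + K * u ^ 6)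
    (hC : |x * BC + c| ≤ η * (|a| + |c|))
    (ht : K / 100 * (s ^ 15 * (u ^ 9)⁻¹) *
        (-(15 / 8 / s ^ 8) - (-(9 / 8) + (-(9 / 8)) ^ 2 * ζ) / u ^ 8) -
      K * u ^ 6 * ((3 / 4 + (3 / 4) ^ 2 * ζ) / u ^ 8) ≤ σ * BC) : False := by
  have hη0 : 0 ≤ η := hζ0.trans hζ
  obtain ⟨B, hB⟩ : ∃ B, B = K * (s ^ 15 * (u ^ 9)⁻¹) := ⟨_, rfl⟩
  obtain ⟨S, hS⟩ : ∃ S, S = K * u ^ 6 := ⟨_, rfl⟩
  have hB0 : 0 < B := by rw [hB]; positivity
  have hS0 : 0 < S := by rw [hS]; positivity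
  have e1 : K / 100 * (s ^ 15 * (u ^ 9)⁻¹) = B / 100 := by rw [hB]; ring
  rw [e1, ← hS] at hc ht
  rw [← hB, ← hS] at ha
  have h1 : |c| = B / 100 + S := by
    rw [← hc, ← abs_of_pos (by rw [hc]; positivity : 0 < σ * c), abs_mul, hσ, one_mul]
  have h2 : σ * (x * BC + c) ≤ 1 / 1000 * (3 * B + 2 * S) := by
    refine (le_abs_self _).trans ?_
    rw [abs_mul, hσ, one_mul]
    refine hC.trans ?_
    rw [h1]
    exact mul_le_mul hη (by linarith) (by positivity) (by norm_num)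
  have hξ : x / u ^ 8 ≤ 10 / 9 := by rw [div_le_iff₀ (by positivity)]; linarith
  have hξ0 : 0 ≤ x / u ^ 8 := by positivity
  have h3 : x * (S * ((3 / 4 + (3 / 4) ^ 2 * ζ) / u ^ 8)) ≤ 84 / 100 * S := by
    have : x * (S * ((3 / 4 + (3 / 4) ^ 2 * ζ) / u ^ 8)) =
        (x / u ^ 8 * (3 / 4 + (3 / 4) ^ 2 * ζ)) * S := by ring
    rw [this]
    refine mul_le_mul_of_nonneg_right ?_ hS0.le
    nlinarith
  have h4 : -(5 / 100 * S) ≤ x * (B / 100 *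
      (-(15 / 8 / s ^ 8) - (-(9 / 8) + (-(9 / 8)) ^ 2 * ζ) / u ^ 8)) := by
    have hq : 1 / u ^ 8 ≤ -((-(9 / 8) + (-(9 / 8)) ^ 2 * ζ) / u ^ 8) := by
      rw [← neg_div]; exact div_le_div_of_nonneg_right (by linarith) (by positivity)
    by_cases hc2 : 2 * u ^ 8 ≤ s ^ 8
    · have : 15 / 8 / s ^ 8 ≤ 1 / u ^ 8 := by
        rw [div_le_div_iff₀ (by positivity) (by positivity)]
        have : 0 < u ^ 8 := by positivity
        linarith
      have : 0 ≤ x * (B / 100 *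
          (-(15 / 8 / s ^ 8) - (-(9 / 8) + (-(9 / 8)) ^ 2 * ζ) / u ^ 8)) :=
        mul_nonneg hx0 (mul_nonneg (by positivity) (by linarith))
      linarith
    · have h5 : s ≤ 11 / 10 * u := by
        refine le_of_pow8 hu.le (by norm_num) ?_
        have : 0 < u ^ 8 := by positivity
        norm_num; linarith
      have h6 : s ^ 7 ≤ 2 * u ^ 7 := by
        refine (pow_le_pow_left₀ hs.le h5 7).trans ?_
        rw [mul_pow]
        exact mul_le_mul_of_nonneg_right (by norm_num) (by positivity)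
      have h7 : x * (B / s ^ 8) ≤ 20 / 9 * S := by
        have : x * (B / s ^ 8) = x / u ^ 8 * (s ^ 7 / u ^ 7) * S := by
          rw [hB, hS]; field_simp
        rw [this]
        refine mul_le_mul_of_nonneg_right ?_ hS0.le
        have h8 : s ^ 7 / u ^ 7 ≤ 2 := by rw [div_le_iff₀ (by positivity)]; exact h6
        calc x / u ^ 8 * (s ^ 7 / u ^ 7) ≤ 10 / 9 * 2 :=
              mul_le_mul hξ h8 (by positivity) (by norm_num)
          _ = 20 / 9 := by norm_num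
      have h9 : 0 ≤ x * (B / 100 * -((-(9 / 8) + (-(9 / 8)) ^ 2 * ζ) / u ^ 8)) :=
        mul_nonneg hx0 (mul_nonneg (by positivity) (le_trans (by positivity) hq))
      have : x * (B / 100 * (-(15 / 8 / s ^ 8) - (-(9 / 8) + (-(9 / 8)) ^ 2 * ζ) / u ^ 8)) =
          -(15 / 800 * (x * (B / s ^ 8))) +
            x * (B / 100 * -((-(9 / 8) + (-(9 / 8)) ^ 2 * ζ) / u ^ 8)) := by ring
      rw [this]; linarith
  have h10 := mul_le_mul_of_nonneg_left ht hx0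
  rw [mul_sub] at h10
  have h11 : σ * (x * BC + c) = x * (σ * BC) + (B / 100 + S) := by rw [← hc]; ring
  linarith

/-- The common part of the two barriers for the scalar curvature. -/
theorem r_core {η u s ζ K a c : ℝ} (hη : η ≤ 1 / 1000) (hu : 0 < u) (hu1 : u ≤ 1) (hs : 0 < s)
    (hζ : ζ ≤ η) (hK : 0 < K)
    (ha : |a| ≤ 2 * (K * (s ^ 15 * (u ^ 9)⁻¹)) + K * u ^ 6)
    (hc : |c| ≤ K * (s ^ 15 * (u ^ 9)⁻¹) + K * u ^ 6) :
    a ^ 2 + c ^ 2 + 2 * η * (40 * K ^ 2 * (s ^ 30 * (u ^ 10)⁻¹)) / u ^ 8 - 20000 * K ^ 2 ≤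
      40 * K ^ 2 * (s ^ 30 * (u ^ 10)⁻¹) *
        (-(15 / 4 / s ^ 8) - (-(5 / 4) + (-(5 / 4)) ^ 2 * ζ) / u ^ 8) := by
  obtain ⟨B, hB⟩ : ∃ B, B = K * (s ^ 15 * (u ^ 9)⁻¹) := ⟨_, rfl⟩
  obtain ⟨S, hS⟩ : ∃ S, S = K * u ^ 6 := ⟨_, rfl⟩
  have hB0 : 0 < B := by rw [hB]; positivity
  have hS0 : 0 < S := by rw [hS]; positivity
  have hS1 : S ≤ K := by
    rw [hS]; exact mul_le_of_le_one_right hK.le (pow_le_one₀ hu.le hu1)
  rw [← hB, ← hS] at ha hc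
  have h1 : a ^ 2 + c ^ 2 ≤ 10 * B ^ 2 + 4 * K ^ 2 := by
    have a1 := pow_le_pow_left₀ (abs_nonneg a) ha 2
    have a2 := pow_le_pow_left₀ (abs_nonneg c) hc 2
    have a3 := pow_le_pow_left₀ hS0.le hS1 2
    rw [sq_abs] at a1 a2
    nlinarith [sq_nonneg (2 * B - S), sq_nonneg (B - S)]
  have e1 : 2 * η * (40 * K ^ 2 * (s ^ 30 * (u ^ 10)⁻¹)) / u ^ 8 = 80 * η * B ^ 2 := by
    rw [hB]; field_simp; ring
  have e2 : 40 * K ^ 2 * (s ^ 30 * (u ^ 10)⁻¹) *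
      (-(15 / 4 / s ^ 8) - (-(5 / 4) + (-(5 / 4)) ^ 2 * ζ) / u ^ 8) =
      -(150 * (B ^ 2 * (u ^ 8 / s ^ 8))) + (50 - 125 / 2 * ζ) * B ^ 2 := by
    rw [hB]; field_simp; ring
  rw [e1, e2]
  have hB2 : 0 < B ^ 2 := by positivity
  have h2 : 49 * B ^ 2 ≤ (50 - 125 / 2 * ζ) * B ^ 2 - 80 * η * B ^ 2 := by nlinarith
  by_cases hc2 : 4 * u ^ 8 ≤ s ^ 8
  · have h3 : u ^ 8 / s ^ 8 ≤ 1 / 4 := by rw [div_le_iff₀ (by positivity)]; linarith
    have h4 := mul_le_mul_of_nonneg_left h3 hB2.le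
    have : 0 < K ^ 2 := by positivity
    linarith
  · have h5 : s ≤ 6 / 5 * u := by
      refine le_of_pow8 hu.le (by norm_num) ?_
      have : 0 < u ^ 8 := by positivity
      norm_num; linarith
    have h6 : s ^ 22 ≤ 100 * u ^ 10 := by
      refine (pow_le_pow_left₀ hs.le h5 22).trans ?_
      rw [mul_pow]
      exact mul_le_mul (by norm_num) (pow_le_pow_of_le_one hu.le hu1 (by norm_num))
        (by positivity) (by norm_num)
    have h7 : B ^ 2 * (u ^ 8 / s ^ 8) ≤ 100 * K ^ 2 := by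
      have : B ^ 2 * (u ^ 8 / s ^ 8) = s ^ 22 / u ^ 10 * K ^ 2 := by rw [hB]; field_simp
      rw [this]
      refine mul_le_mul_of_nonneg_right ?_ (by positivity)
      rw [div_le_iff₀ (by positivity)]; exact h6
    have : 0 < K ^ 2 := by positivity
    linarith

end

end Crest.Agent.N207.S.In
end

-- ▼ part N207/S/In/Ac
section

/-!
Row 207 (S0320): the bounds for the trace free Ricci curvature.
-/

set_option autoImplicit false

open Set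

namespace Crest.Agent.N207.S.In

noncomputable section

theorem abs_mul_le {a b A B : ℝ} (ha : |a| ≤ A) (hb : |b| ≤ B) : |a * b| ≤ A * B := by
  rw [abs_mul]; exact mul_le_mul ha hb (abs_nonneg _) ((abs_nonneg _).trans ha)

theorem outer_a {η C e x w0 w1 w2 k0 k1 BA BC BR q : ℝ}
    (hG : Good η C e x w0 w1 w2 k0 k1 BA BC BR) (hη : η ≤ 1 / 1000) (he : 0 ≤ e) (hw : 0 < w0)
    (hx0 : 0 ≤ x) (hx : x ≤ 2 * w0) (hq : 0 ≤ q) (h0 : |w0 - x| ≤ x ^ 2 * q)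
    (h1 : |w1 - 1| ≤ x * q) (h2 : |w2| ≤ q) :
    |aH e x w0 w1 w2 k0 k1| ≤ 2 * q + 2 * η * |cH e x w0 w1 w2 k0 k1| := by
  have hw' := hw.ne'
  have key : (2 * (1 + e) + 4 * (e * (x * w1 / w0))) * aH e x w0 w1 w2 k0 k1 =
      -((1 + e) * (1 + 4 * e) * (2 * e * (1 - x * k0) * (x / w0) * w2 +
        (1 + 2 * e * (1 - x * k0)) * ((w1 - 1) / w0) +
        2 * e * (1 - x * k0) * ((w0 - x) / w0 ^ 2) -
        2 * (1 - x * k0) * ((w1 - 1) / w0) * (e * (x / w0) + e * (x * w1 / w0)))) -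
      2 * (1 + e) * ((w0 * rE e x w0 w1 w2 k0 k1) *
        ((w0 - x) / w0 ^ 2 - x / w0 * ((w1 - 1) / w0))) -
      2 * (e * (x * w1 / w0)) * cH e x w0 w1 w2 k0 k1 := by
    simp only [aH, cH, rE, ricA, ricB, ricC, kSF]
    field_simp
    ring
  have hξ : |x / w0| ≤ 2 := by
    rw [abs_of_nonneg (by positivity), div_le_iff₀ hw]; exact hx
  have hδ : |(w1 - 1) / w0| ≤ 2 * q := by
    rw [abs_div, abs_of_pos hw, div_le_iff₀ hw]; nlinarith
  have hα : |(w0 - x) / w0 ^ 2| ≤ 4 * q := by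
    rw [abs_div, abs_of_pos (by positivity : 0 < w0 ^ 2), div_le_iff₀ (by positivity)]
    have : x ^ 2 ≤ 4 * w0 ^ 2 := by nlinarith
    nlinarith
  have hπ : |e * (x * w1 / w0)| ≤ η := by
    rw [abs_mul, abs_of_nonneg he, abs_div, abs_of_pos hw, ← mul_div_assoc, div_le_iff₀ hw]
    exact hG.hP
  have hR : |w0 * rE e x w0 w1 w2 k0 k1| ≤ 1 / 1000 := by
    rw [abs_mul, abs_of_pos hw]; exact hG.bR.trans hη
  have hk := abs_le.1 hG.hk
  have he1 : e ≤ 1 / 1000 := hG.he.trans hη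
  have hz : |1 - x * k0| ≤ 11 / 10 := abs_le.2 ⟨by linarith, by linarith⟩
  have he2 : |2 * e| ≤ 1 / 500 := by rw [abs_of_nonneg (by positivity)]; linarith
  generalize aH e x w0 w1 w2 k0 k1 = A at *
  generalize cH e x w0 w1 w2 k0 k1 = Cc at *
  generalize w0 * rE e x w0 w1 w2 k0 k1 = R at *
  generalize e * (x * w1 / w0) = π at *
  generalize (w0 - x) / w0 ^ 2 = α at *
  generalize (w1 - 1) / w0 = δ at *
  generalize x / w0 = ξ at *
  generalize 1 - x * k0 = z at *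
  have t0 := abs_mul_le he2 hz
  have t1 := abs_mul_le (abs_mul_le t0 hξ) h2
  have t2 := abs_mul_le (abs_le.2 ⟨by linarith [(abs_le.1 t0).1], by linarith [(abs_le.1 t0).2]⟩ :
    |1 + 2 * e * z| ≤ 101 / 100) hδ
  have t3 := abs_mul_le t0 hα
  have t4 : |e * ξ + π| ≤ 1 / 100 := by
    have := abs_le.1 (abs_mul_le (show |e| ≤ 1 / 1000 by rwa [abs_of_nonneg he]) hξ)
    have := abs_le.1 hπ
    exact abs_le.2 ⟨by linarith, by linarith⟩
  have t5 := abs_mul_le (abs_mul_le (abs_mul_le (show |(2 : ℝ)| ≤ 2 by norm_num) hz) hδ) t4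
  have t6 : |2 * e * z * ξ * w2 + (1 + 2 * e * z) * δ + 2 * e * z * α - 2 * z * δ * (e * ξ + π)| ≤
      3 * q := by
    have := abs_le.1 t1
    have := abs_le.1 t2
    have := abs_le.1 t3
    have := abs_le.1 t5
    exact abs_le.2 ⟨by linarith, by linarith⟩
  have t7 := abs_mul_le (show |(1 + e) * (1 + 4 * e)| ≤ 11 / 10 by
    rw [abs_of_nonneg (by positivity)]; nlinarith) t6
  have t8 : |α - ξ * δ| ≤ 8 * q := by
    have := abs_le.1 (abs_mul_le hξ hδ)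
    have := abs_le.1 hα
    exact abs_le.2 ⟨by linarith, by linarith⟩
  have t9 := abs_mul_le (show |2 * (1 + e)| ≤ 3 by
    rw [abs_of_nonneg (by positivity)]; linarith) (abs_mul_le hR t8)
  have t10 := abs_mul_le (abs_mul_le (show |(2 : ℝ)| ≤ 2 by norm_num) hπ) (le_refl |Cc|)
  have t11 : |(2 * (1 + e) + 4 * π) * A| ≤ 35 / 10 * q + 2 * η * |Cc| := by
    rw [key]
    have := abs_le.1 t7
    have := abs_le.1 t9
    have := abs_le.1 t10
    exact abs_le.2 ⟨by linarith, by linarith⟩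
  have t12 : 19 / 10 ≤ 2 * (1 + e) + 4 * π := by linarith [(abs_le.1 hπ).1]
  rw [abs_mul, abs_of_pos (by linarith : 0 < 2 * (1 + e) + 4 * π)] at t11
  have t13 := mul_le_mul_of_nonneg_right t12 (abs_nonneg A)
  have t14 : 0 ≤ 2 * η * |Cc| := mul_nonneg (by linarith [abs_nonneg π]) (abs_nonneg _)
  linarith

variable {e t0 t1 T X η C m : ℝ} {w wt k kt : ℕ → ℝ → ℝ → ℝ}

/-- The data of the comparison arguments on `[t0,t1] × [0,X]`. -/
structure Su (e t0 t1 T X η C m : ℝ) (w wt k kt : ℕ → ℝ → ℝ → ℝ) : Prop where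
  sol : XSol e t0 t1 X w wt k kt
  he : 0 ≤ e
  hη : η ≤ 1 / 1000
  hT : t1 < T
  hX : (T - t0) / 200 < X
  m0 : 0 < m
  good : ∀ t x, t ∈ Icc t0 t1 → x ∈ Icc 0 X →
    Good η C e x (w 0 t x) (w 1 t x) (w 2 t x) (k 0 t x) (k 1 t x)
      (box e w wt k kt (xAH e) t x) (box e w wt k kt (xCH e) t x) (box e w wt k kt (xRE e) t x)
  w1 : ∀ t x, t ∈ Icc t0 t1 → x ∈ Icc 0 X → w 0 t x ≤ 1 ∧ 9 * x ≤ 10 * w 0 t x
  inn : ∀ t x, t ∈ Icc t0 t1 → x ∈ Icc 0 ((T - t) / 200) → 60 * w 0 t x ≤ T - t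
  out : ∀ t x, t ∈ Icc t0 t1 → x ∈ Icc ((T - t) / 200) X →
    |ev (env w k t x) (xAH e)| ≤ 4 * w 0 t x ^ (3 / 4 : ℝ) + 2 * η * |ev (env w k t x) (xCH e)|
  low0 : ∀ x ∈ Icc 0 X, m ≤ w 0 t0 x
  lowX : ∀ t ∈ Icc t0 t1, m ≤ w 0 t X

theorem abs_sg (b : Bool) : |(if b then 1 else -1 : ℝ)| = 1 := by cases b <;> simp

theorem abs_le_of_sg {a B : ℝ} (h : ∀ b : Bool, (if b then 1 else -1 : ℝ) * a - B ≤ 0) :
    |a| ≤ B := by
  have h1 := h true
  have h2 := h false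
  simp only [if_true, Bool.false_eq_true, if_false] at h1 h2
  exact abs_le.2 ⟨by linarith, by linarith⟩

theorem small_lt {w m C K a : ℝ} (hm : 0 < m) (hw : m ≤ w) (hw1 : w ≤ 1) (ha : w * |a| ≤ C)
    (hK : C < K * m ^ 2) (hK0 : 0 < K) : |a| < K * w ^ (3 / 4 : ℝ) := by
  have hw0 : 0 < w := hm.trans_le hw
  have h1 : w ≤ w ^ (3 / 4 : ℝ) := by
    simpa using Real.rpow_le_rpow_of_exponent_ge hw0 hw1 (by norm_num : (3 / 4 : ℝ) ≤ 1)
  have h2 : K * m ^ 2 ≤ w * (K * w) := by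
    have := pow_le_pow_left₀ hm.le hw 2
    nlinarith
  have h3 : |a| < K * w := lt_of_mul_lt_mul_left (by linarith) hw0.le
  exact h3.trans_le (mul_le_mul_of_nonneg_left h1 hK0.le)

theorem S2_le_B' {w τ : ℝ} (hw : 0 < w) (h : w ≤ τ) :
    w ^ (3 / 4 : ℝ) ≤ τ ^ (15 / 8 : ℝ) * w ^ (-(9 / 8) : ℝ) := by
  obtain ⟨u, hu, e1, e2, e3, -⟩ := rt8' hw
  obtain ⟨s, hs, f1, -, -, -, -, f2, -⟩ := rt8' (hw.trans_le h)
  rw [e2, e3, f2]
  exact S2_le_B hu (by rw [← e1, ← f1]; exact h) hs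

theorem cont_min {f : ℝ → ℝ → ℝ}
    (hf : ContinuousOn (fun p : ℝ × ℝ => f p.1 p.2) (Icc t0 t1 ×ˢ Icc 0 X)) (hT : t1 < T) :
    ContinuousOn (fun p : ℝ × ℝ => f p.1 (min p.2 ((T - p.1) / 200))) (Icc t0 t1 ×ˢ Icc 0 X) := by
  have hm : Continuous fun p : ℝ × ℝ => (p.1, min p.2 ((T - p.1) / 200)) := by fun_prop
  refine hf.comp hm.continuousOn fun p hp => ⟨hp.1, le_min hp.2.1 ?_, ?_⟩
  · linarith [hp.1.2]
  · exact (min_le_left _ _).trans hp.2.2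

set_option maxHeartbeats 1000000 in
theorem ac_bound (h : Su e t0 t1 T X η C m w wt k kt) {K : ℝ} (hK : 8 ≤ K)
    (hKC : C < K * m ^ 2) {t x : ℝ} (ht : t ∈ Icc t0 t1) (hx : x ∈ Icc 0 X) :
    |ev (env w k t x) (xAH e)| ≤ 2 * (K * ((T - t) ^ (15 / 8 : ℝ) * w 0 t x ^ (-(9 / 8) : ℝ))) +
        K * w 0 t x ^ (3 / 4 : ℝ) ∧
      |ev (env w k t x) (xCH e)| ≤ K * ((T - t) ^ (15 / 8 : ℝ) * w 0 t x ^ (-(9 / 8) : ℝ)) +
        K * w 0 t x ^ (3 / 4 : ℝ) := by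
  have hK0 : 0 < K := by linarith
  have hη := h.hη
  have hG0 : ∀ t ∈ Icc t0 t1, HasDerivAt (fun _ : ℝ => (0 : ℝ)) ((fun _ => 0) t) t :=
    fun t _ => hasDerivAt_const _ _
  have hτ : ∀ s ∈ Icc t0 t1, 0 < (T - s) / 200 ∧ (T - s) / 200 < X := fun s hs =>
    ⟨by linarith [hs.2, h.hT], by linarith [hs.1, h.hX]⟩
  let F : Bool × Bool → ℝ → ℝ → ℝ := fun i s y =>
    if i.1 then (if i.2 then 1 else -1 : ℝ) * ev (env w k s (min y ((T - s) / 200))) (xAH e) -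
      bar T K (15 / 8) (-(9 / 8)) 0 0 (fun _ => 0) (w 0) s (min y ((T - s) / 200))
    else (if i.2 then 1 else -1 : ℝ) * ev (env w k s y) (xCH e) -
      bar T (K / 100) (15 / 8) (-(9 / 8)) K (3 / 4) (fun _ => 0) (w 0) s y
  -- consequences of the barrier inequalities on a time slice
  have hcons : ∀ s ∈ Icc t0 t1, (∀ i y, 0 ≤ y → y ≤ X → F i s y ≤ 0) → ∀ y ∈ Icc 0 X,
      |ev (env w k s y) (xAH e)| ≤
        2 * (K * ((T - s) ^ (15 / 8 : ℝ) * w 0 s y ^ (-(9 / 8) : ℝ))) +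
          K * w 0 s y ^ (3 / 4 : ℝ) ∧
      |ev (env w k s y) (xCH e)| ≤ K / 100 * ((T - s) ^ (15 / 8 : ℝ) * w 0 s y ^ (-(9 / 8) : ℝ)) +
        K * w 0 s y ^ (3 / 4 : ℝ) := by
    intro s hs hF y hy
    have hw := h.sol.pos s y hs hy
    have hτs : 0 < T - s := by linarith [(hτ s hs).1]
    have p1 : 0 < (T - s) ^ (15 / 8 : ℝ) * w 0 s y ^ (-(9 / 8) : ℝ) := by positivity
    have p2 : 0 < w 0 s y ^ (3 / 4 : ℝ) := by positivity
    have hc : |ev (env w k s y) (xCH e)| ≤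
        K / 100 * ((T - s) ^ (15 / 8 : ℝ) * w 0 s y ^ (-(9 / 8) : ℝ)) +
          K * w 0 s y ^ (3 / 4 : ℝ) := by
      refine abs_le_of_sg fun b => ?_
      simpa [F, bar] using hF (false, b) y hy.1 hy.2
    refine ⟨?_, hc⟩
    rcases le_total y ((T - s) / 200) with hy1 | hy1
    · have : |ev (env w k s y) (xAH e)| ≤
          K * ((T - s) ^ (15 / 8 : ℝ) * w 0 s y ^ (-(9 / 8) : ℝ)) := by
        refine abs_le_of_sg fun b => ?_
        simpa [F, bar, min_eq_left hy1] using hF (true, b) y hy.1 hy.2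
      nlinarith
    · have h1 := h.out s y hs ⟨hy1, hy.2⟩
      have h2 : 2 * η * |ev (env w k s y) (xCH e)| ≤ 1 / 2 * |ev (env w k s y) (xCH e)| :=
        mul_le_mul_of_nonneg_right (by linarith) (abs_nonneg _)
      nlinarith
  have main := MP.neg_of_no_touch (l := fun _ => 0) (r := fun _ => X) (t0 := t0) (t1 := t1)
    continuousOn_const continuousOn_const F ?_ ?_ ?_ (fun s a b => by
      linarith [hτ s ⟨a, b⟩])
  · have := hcons t ht (fun i y a b => (main i t y ht.1 ht.2 a b).le) x hx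
    refine ⟨this.1, this.2.trans ?_⟩
    have hw := h.sol.pos t x ht hx
    have hτs : 0 < T - t := by linarith [(hτ t ht).1]
    have p1 : 0 < (T - t) ^ (15 / 8 : ℝ) * w 0 t x ^ (-(9 / 8) : ℝ) := by positivity
    nlinarith
  · rintro ⟨b1, b2⟩
    have hsub : MP.Reg (fun _ => 0) (fun _ => X) t0 t1 ⊆ Icc t0 t1 ×ˢ Icc 0 X :=
      fun p hp => ⟨⟨hp.1, hp.2.1⟩, hp.2.2⟩
    cases b1
    · exact (((Pk.ev (pk_env h.sol) (xCH e)).cmul _).cont.sub
        (continuousOn_bar h.sol h.hT _ _ _ _ _ hG0)).mono hsub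
    · have hc := ((Pk.ev (pk_env h.sol) (xAH e)).cmul (if b2 then 1 else -1 : ℝ)).cont.sub
        (continuousOn_bar h.sol h.hT K (15 / 8) (-(9 / 8)) 0 0 hG0)
      exact (cont_min (f := fun s y => (if b2 then 1 else -1 : ℝ) * ev (env w k s y) (xAH e) -
        bar T K (15 / 8) (-(9 / 8)) 0 0 (fun _ => 0) (w 0) s y) hc h.hT).mono hsub
  · rintro ⟨b1, b2⟩ y hy0 hy1
    have h01 : t0 ∈ Icc t0 t1 := ⟨le_rfl, ht.1.trans ht.2⟩
    have hτs : 0 < T - t0 := by linarith [(hτ t0 h01).1]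
    cases b1
    · have hy : y ∈ Icc 0 X := ⟨hy0, hy1⟩
      have hw := h.sol.pos t0 y h01 hy
      have h1 := small_lt h.m0 (h.low0 y hy) (h.w1 t0 y h01 hy).1 (h.good t0 y h01 hy).bC hKC hK0
      rw [← ev_xCH] at h1
      have p1 : 0 < K / 100 * ((T - t0) ^ (15 / 8 : ℝ) * w 0 t0 y ^ (-(9 / 8) : ℝ)) := by
        positivity
      have h2 := le_abs_self ((if b2 then 1 else -1 : ℝ) * ev (env w k t0 y) (xCH e))
      rw [abs_mul, abs_sg, one_mul] at h2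
      simp only [F, bar, Bool.false_eq_true, if_false]
      linarith
    · have hy' : min y ((T - t0) / 200) ∈ Icc 0 ((T - t0) / 200) :=
        ⟨le_min hy0 (hτ _ h01).1.le, min_le_right _ _⟩
      have hy : min y ((T - t0) / 200) ∈ Icc 0 X := ⟨hy'.1, (min_le_left _ _).trans hy1⟩
      simp only [F, bar, if_true]
      generalize min y ((T - t0) / 200) = y' at *
      have hw := h.sol.pos t0 y' h01 hy
      have h1 := small_lt h.m0 (h.low0 y' hy) (h.w1 t0 y' h01 hy).1 (h.good t0 y' h01 hy).bA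
        hKC hK0
      rw [← ev_xAH] at h1
      have h2 := le_abs_self ((if b2 then 1 else -1 : ℝ) * ev (env w k t0 y') (xAH e))
      rw [abs_mul, abs_sg, one_mul] at h2
      have h3 := mul_le_mul_of_nonneg_left
        (S2_le_B' hw (by linarith [h.inn t0 y' h01 hy'] : w 0 t0 y' ≤ T - t0)) hK0.le
      linarith
  · rintro ⟨b1, b2⟩ s y hs0 hs1 hy0 hy1 hz hp
    have hs : s ∈ Icc t0 t1 := ⟨hs0.le, hs1⟩
    have hτs : 0 < T - s := by linarith [(hτ s hs).1]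
    have hcs := hcons s hs fun i y a b => hp i s y hs0.le le_rfl a b
    cases b1
    · have hy : y ∈ Icc 0 X := ⟨hy0, hy1⟩
      have hw := h.sol.pos s y hs hy
      have hg := h.good s y hs hy
      simp only [F, Bool.false_eq_true, if_false] at hz
      rcases hy1.eq_or_lt with hyX | hyX
      · have h1 := small_lt h.m0 (hyX ▸ h.lowX s hs) (h.w1 s y hs hy).1 hg.bC hKC hK0
        rw [← ev_xCH] at h1
        have p1 : 0 < K / 100 * ((T - s) ^ (15 / 8 : ℝ) * w 0 s y ^ (-(9 / 8) : ℝ)) := by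
          positivity
        have h2 := le_abs_self ((if b2 then 1 else -1 : ℝ) * ev (env w k s y) (xCH e))
        rw [abs_mul, abs_sg, one_mul] at h2
        simp only [bar] at hz
        linarith
      · have hzz : 0 ≤ 1 - y * k 0 s y := by linarith [(abs_le.1 hg.hk).2]
        have h1 := touch_bar h.sol h.he h.hT (K / 100) (15 / 8) (-(9 / 8)) K (3 / 4) _ hG0
          (xCH e) (r := fun _ => X) continuousOn_const (fun _ _ => le_rfl) hs0 hs1 hy0 hyX hzz hz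
          (fun s' y' a b c d => hp (false, b2) s' y' a b c d)
        have h2 := (hcs y hy).1
        have h3 := hg.hC
        have h4 := (h.w1 s y hs hy).2
        have h5 : 2 * e * y * (1 - y * k 0 s y) * w 1 s y ^ 2 / w 0 s y ≤ η := by
          rw [div_le_iff₀ hw]; exact hg.hZ
        have he := h.he
        have h6 : 0 ≤ 2 * e * y * (1 - y * k 0 s y) * w 1 s y ^ 2 / w 0 s y := by positivity
        rw [← ev_xAH, ← ev_xCH] at h3
        simp only [bar, add_zero] at hz h1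
        generalize 2 * e * y * (1 - y * k 0 s y) * w 1 s y ^ 2 / w 0 s y = ζ at h1 h5 h6
        obtain ⟨u, hu, e1, e2, e3, -⟩ := rt8' hw
        obtain ⟨v, hv, f1, -, -, -, -, f2, -⟩ := rt8' hτs
        rw [e2, e3, f2] at hz h1 h2
        rw [e1, f1] at h1
        rw [e1] at h4
        exact c_touch hη hu hv hy0 h4 h6 h5 hK0 (abs_sg b2) (sub_eq_zero.1 hz) h2 h3 h1
    · have hy' : min y ((T - s) / 200) ∈ Icc 0 ((T - s) / 200) :=
        ⟨le_min hy0 (hτ _ hs).1.le, min_le_right _ _⟩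
      have hy : min y ((T - s) / 200) ∈ Icc 0 X := ⟨hy'.1, (min_le_left _ _).trans hy1⟩
      simp only [F, if_true] at hz
      generalize min y ((T - s) / 200) = y' at *
      have hw := h.sol.pos s y' hs hy
      have hg := h.good s y' hs hy
      have hin := h.inn s y' hs hy'
      have h3 := mul_le_mul_of_nonneg_left (S2_le_B' hw (by linarith : w 0 s y' ≤ T - s)) hK0.le
      have p1 : 0 < K * ((T - s) ^ (15 / 8 : ℝ) * w 0 s y' ^ (-(9 / 8) : ℝ)) := by positivity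
      have p2 : 0 < w 0 s y' ^ (3 / 4 : ℝ) := by positivity
      have h4 : |ev (env w k s y') (xCH e)| ≤
          2 * (K * ((T - s) ^ (15 / 8 : ℝ) * w 0 s y' ^ (-(9 / 8) : ℝ))) := by
        linarith [(hcs y' hy).2]
      have hz' : (if b2 then 1 else -1 : ℝ) * ev (env w k s y') (xAH e) =
          K * ((T - s) ^ (15 / 8 : ℝ) * w 0 s y' ^ (-(9 / 8) : ℝ)) := by
        simp only [bar] at hz; linarith
      rcases hy'.2.eq_or_lt with hyX | hyX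
      · have h1 := h.out s y' hs ⟨hyX.ge, hy.2⟩
        have h2 := le_abs_self ((if b2 then 1 else -1 : ℝ) * ev (env w k s y') (xAH e))
        rw [abs_mul, abs_sg, one_mul] at h2
        have h5 : 2 * η * |ev (env w k s y') (xCH e)| ≤ 1 / 8 * |ev (env w k s y') (xCH e)| :=
          mul_le_mul_of_nonneg_right (by linarith) (abs_nonneg _)
        have h6 := mul_le_mul_of_nonneg_right hK p2.le
        linarith
      · have hzz : 0 ≤ 1 - y' * k 0 s y' := by linarith [(abs_le.1 hg.hk).2]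
        have h1 := touch_bar h.sol h.he h.hT K (15 / 8) (-(9 / 8)) 0 0 _ hG0
          (xAH e) (r := fun s => (T - s) / 200) (by fun_prop) (fun s hs => (hτ s hs).2.le)
          hs0 hs1 hy.1 hyX hzz hz (fun s' y'' a b c d => by
            have := hp (true, b2) s' y'' a b c (d.trans (hτ s' ⟨a, b.trans hs1⟩).2.le)
            simpa only [F, if_true, min_eq_left d] using this)
        have h5 : 2 * e * y' * (1 - y' * k 0 s y') * w 1 s y' ^ 2 / w 0 s y' ≤ η := by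
          rw [div_le_iff₀ hw]; exact hg.hZ
        have h6 := hg.hA
        rw [← ev_xAH, ← ev_xCH] at h6
        simp only [zero_mul, sub_zero, add_zero] at h1
        exact a_touch hη hw hin h5 p1 (abs_sg b2) hz' h4 h6 (h.he.trans hg.he) h1

end

end Crest.Agent.N207.S.In
end

-- ▼ part N207/S/In/Post
section

/-!
Row 207 (S0320): the scalar curvature is bounded (block POST).
-/

set_option autoImplicit false

open Set

namespace Crest.Agent.N207.S.In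

noncomputable section

variable {e t0 t1 T X η C m : ℝ} {w wt k kt : ℕ → ℝ → ℝ → ℝ}

theorem r_gen (h : Su e t0 t1 T X η C m w wt k kt) {K K2 : ℝ} (hK : 8 ≤ K)
    (hKC : C < K * m ^ 2) (hK2 : 0 ≤ K2) {G G' : ℝ → ℝ}
    (hG : ∀ t ∈ Icc t0 t1, HasDerivAt G (G' t) t) (hm : ∀ t ∈ Icc t0 t1, 1 / m < K2 + G t)
    (hstep : ∀ s y, s ∈ Icc t0 t1 → y ∈ Icc 0 X → |ev (env w k s y) (xRE e)| =
      bar T (40 * K ^ 2) (15 / 4) (-(5 / 4)) K2 (-(1 / 8)) G (w 0) s y →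
      20000 * K ^ 2 + 2 * ev (env w k s y) (xRE e) ^ 2 <
        2 * η * (40 * K ^ 2 * ((T - s) ^ (15 / 4 : ℝ) * w 0 s y ^ (-(5 / 4) : ℝ))) / w 0 s y +
          K2 * w 0 s y ^ (-(1 / 8) : ℝ) * (1 / 9 / w 0 s y) + G' s)
    {t x : ℝ} (ht : t ∈ Icc t0 t1) (hx : x ∈ Icc 0 X) :
    |ev (env w k t x) (xRE e)| ≤
      bar T (40 * K ^ 2) (15 / 4) (-(5 / 4)) K2 (-(1 / 8)) G (w 0) t x := by
  have hK0 : 0 < K := by linarith
  have hη := h.hη
  have hX0 : 0 < X := by linarith [h.hX, h.hT, ht.1, ht.2]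
  have hedge : ∀ s y, s ∈ Icc t0 t1 → y ∈ Icc 0 X → m ≤ w 0 s y → ∀ b : Bool,
      (if b then 1 else -1 : ℝ) * ev (env w k s y) (xRE e) -
        bar T (40 * K ^ 2) (15 / 4) (-(5 / 4)) K2 (-(1 / 8)) G (w 0) s y < 0 := by
    intro s y hs hy hmw b
    have hw := h.sol.pos s y hs hy
    have hτ : 0 < T - s := by linarith [hs.2, h.hT]
    have h1 := (h.good s y hs hy).bR
    rw [← ev_xRE] at h1
    have h2 := le_abs_self ((if b then 1 else -1 : ℝ) * ev (env w k s y) (xRE e))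
    rw [abs_mul, abs_sg, one_mul] at h2
    have h3 : |ev (env w k s y) (xRE e)| ≤ 1 / m := by
      rw [le_div_iff₀ h.m0]
      nlinarith [abs_nonneg (ev (env w k s y) (xRE e))]
    have h4 : 1 ≤ w 0 s y ^ (-(1 / 8) : ℝ) :=
      Real.one_le_rpow_of_pos_of_le_one_of_nonpos hw (h.w1 s y hs hy).1 (by norm_num)
    have h5 : 0 < 40 * K ^ 2 * ((T - s) ^ (15 / 4 : ℝ) * w 0 s y ^ (-(5 / 4) : ℝ)) := by
      positivity
    have h6 := mul_le_mul_of_nonneg_left h4 hK2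
    simp only [bar]
    linarith [hm s hs]
  have main := MP.neg_of_no_touch (l := fun _ => 0) (r := fun _ => X) (t0 := t0) (t1 := t1)
    continuousOn_const continuousOn_const
    (fun (b : Bool) s y => (if b then 1 else -1 : ℝ) * ev (env w k s y) (xRE e) -
      bar T (40 * K ^ 2) (15 / 4) (-(5 / 4)) K2 (-(1 / 8)) G (w 0) s y) ?_ ?_ ?_
    (fun _ _ _ => hX0)
  · exact abs_le_of_sg fun b => (main b t x ht.1 ht.2 hx.1 hx.2).le
  · intro b
    exact (((Pk.ev (pk_env h.sol) (xRE e)).cmul _).cont.sub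
      (continuousOn_bar h.sol h.hT _ _ _ _ _ hG)).mono fun p hp => ⟨⟨hp.1, hp.2.1⟩, hp.2.2⟩
  · intro b y a c
    exact hedge t0 y ⟨le_rfl, ht.1.trans ht.2⟩ ⟨a, c⟩ (h.low0 y ⟨a, c⟩) b
  · intro b s y hs0 hs1 hy0 hy1 hz hp
    have hs : s ∈ Icc t0 t1 := ⟨hs0.le, hs1⟩
    have hy : y ∈ Icc 0 X := ⟨hy0, hy1⟩
    rcases hy1.eq_or_lt with hyX | hyX
    · exact (hedge s y hs hy (hyX ▸ h.lowX s hs) b).ne hz
    have hτ : 0 < T - s := by linarith [hs.2, h.hT]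
    have hw := h.sol.pos s y hs hy
    have hg := h.good s y hs hy
    have hzz : 0 ≤ 1 - y * k 0 s y := by linarith [(abs_le.1 hg.hk).2]
    have h1 := touch_bar h.sol h.he h.hT (40 * K ^ 2) (15 / 4) (-(5 / 4)) K2 (-(1 / 8)) _ hG
      (xRE e) (r := fun _ => X) continuousOn_const (fun _ _ => le_rfl) hs0 hs1 hy0 hyX hzz hz
      (fun s' y' a b' c d => hp b s' y' a b' c d)
    have h2 : |ev (env w k s y) (xRE e)| =
        bar T (40 * K ^ 2) (15 / 4) (-(5 / 4)) K2 (-(1 / 8)) G (w 0) s y := by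
      refine le_antisymm (abs_le_of_sg fun b' => hp b' s y hs0.le le_rfl hy0 hy1) ?_
      have h2 := le_abs_self ((if b then 1 else -1 : ℝ) * ev (env w k s y) (xRE e))
      rw [abs_mul, abs_sg, one_mul] at h2
      linarith
    have h3 := hstep s y hs hy h2
    have h4 : (if b then 1 else -1 : ℝ) * box e w wt k kt (xRE e) s y ≤
        box e w wt k kt (xRE e) s y := by
      have := le_abs_self ((if b then 1 else -1 : ℝ) * box e w wt k kt (xRE e) s y)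
      rwa [abs_mul, abs_sg, one_mul, abs_of_nonneg hg.hR0] at this
    have h5 := hg.hR1
    rw [← ev_xAH, ← ev_xCH, ← ev_xRE] at h5
    obtain ⟨h6, h7⟩ := ac_bound h hK hKC hs hy
    have h8 : 2 * e * y * (1 - y * k 0 s y) * w 1 s y ^ 2 / w 0 s y ≤ η := by
      rw [div_le_iff₀ hw]; exact hg.hZ
    generalize 2 * e * y * (1 - y * k 0 s y) * w 1 s y ^ 2 / w 0 s y = ζ at h1 h8
    have h9 : K2 * w 0 s y ^ (-(1 / 8) : ℝ) * (1 / 9 / w 0 s y) ≤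
        -(K2 * w 0 s y ^ (-(1 / 8) : ℝ) * ((-(1 / 8) + (-(1 / 8)) ^ 2 * ζ) / w 0 s y)) := by
      have : 1 / 9 / w 0 s y ≤ -(-(1 / 8) + (-(1 / 8)) ^ 2 * ζ) / w 0 s y :=
        div_le_div_of_nonneg_right (by linarith) hw.le
      rw [neg_div] at this
      rw [← mul_neg]
      exact mul_le_mul_of_nonneg_left this (by positivity)
    have hw1 := (h.w1 s y hs hy).1
    obtain ⟨u, hu, e1, e2, e3, e4, -⟩ := rt8' hw
    obtain ⟨v, hv, f1, -, -, -, -, f2, f3, -⟩ := rt8' hτ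
    have hu1 : u ≤ 1 := by
      simpa using le_of_pow8 (s := u) (u := 1) (a := 1) zero_le_one zero_le_one
        (by rw [← e1]; simpa using hw1)
    rw [e2, e3, f2] at h6 h7
    have h10 := r_core hη hu hu1 hv h8 hK0 h6 h7
    rw [← e4, ← f3, ← e1, ← f1] at h10
    linarith

theorem r_bound (h : Su e t0 t1 T X η C m w wt k kt) {K c : ℝ} (hK : 8 ≤ K)
    (hKC : C < K * m ^ 2) (hc : 0 < c) (hτ : T - t0 ≤ 20)
    (hlow : ∀ t x, t ∈ Icc t0 t1 → x ∈ Icc 0 X → c * (T - t) ^ 3 ≤ w 0 t x) :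
    ∃ C' : ℝ, (∀ t x, t ∈ Icc t0 t1 → x ∈ Icc 0 X → |ev (env w k t x) (xRE e)| ≤ C') ∧
      C' = 40 * K ^ 2 * c ^ (-(5 / 4) : ℝ) + (1 / m + 1 + 20 * (400001 * K ^ 2 +
        4 * (20 * (40 * K ^ 2 * c ^ (-(5 / 4) : ℝ)) ^ 2 +
          ((1 / m + 300000 * K ^ 2) * c ^ (-(1 / 8) : ℝ)) ^ 2))) := by
  have hK0 : 0 < K := by linarith
  have hη := h.hη
  have hm0 := h.m0
  refine ⟨_, fun t x ht hx => ?_, rfl⟩
  have hP1 : ∀ s y, s ∈ Icc t0 t1 → y ∈ Icc 0 X →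
      (T - s) ^ (15 / 4 : ℝ) * w 0 s y ^ (-(5 / 4) : ℝ) ≤ c ^ (-(5 / 4) : ℝ) ∧
      w 0 s y ^ (-(1 / 8) : ℝ) ≤ c ^ (-(1 / 8) : ℝ) * (T - s) ^ (-(3 / 8) : ℝ) := by
    intro s y hs hy
    have hτ : 0 < T - s := by linarith [hs.2, h.hT]
    have h1 := hlow s y hs hy
    have h2 : ∀ r : ℝ, r ≤ 0 → w 0 s y ^ r ≤ c ^ r * (T - s) ^ (3 * r) := fun r hr => by
      refine (Real.rpow_le_rpow_of_nonpos (by positivity) h1 hr).trans_eq ?_
      rw [Real.mul_rpow hc.le (by positivity), Real.rpow_mul hτ.le]; norm_num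
    constructor
    · refine (mul_le_mul_of_nonneg_left (h2 _ (by norm_num)) (by positivity)).trans_eq ?_
      rw [mul_left_comm, ← Real.rpow_add hτ]; norm_num
    · refine (h2 _ (by norm_num)).trans_eq ?_
      norm_num
  -- first pass
  have s1 : ∀ s y, s ∈ Icc t0 t1 → y ∈ Icc 0 X → |ev (env w k s y) (xRE e)| ≤
      40 * K ^ 2 * c ^ (-(5 / 4) : ℝ) +
        (1 / m + 300000 * K ^ 2) * c ^ (-(1 / 8) : ℝ) * (T - s) ^ (-(3 / 8) : ℝ) := by
    intro s y hs hy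
    have := r_gen h hK hKC (K2 := 1 / m + 300000 * K ^ 2) (by positivity)
      (G := fun _ => 0) (G' := fun _ => 0) (fun _ _ => hasDerivAt_const _ _)
      (fun _ _ => by nlinarith) ?_ hs hy
    · refine this.trans ?_
      simp only [bar, add_zero, mul_assoc (1 / m + 300000 * K ^ 2)]
      exact add_le_add (mul_le_mul_of_nonneg_left (hP1 s y hs hy).1 (by positivity))
        (mul_le_mul_of_nonneg_left (hP1 s y hs hy).2 (by positivity))
    intro s y hs hy hb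
    have hw := h.sol.pos s y hs hy
    have hw1 := (h.w1 s y hs hy).1
    have h1 := (h.good s y hs hy).bR
    rw [← ev_xRE] at h1
    have h4 : 1 ≤ w 0 s y ^ (-(1 / 8) : ℝ) :=
      Real.one_le_rpow_of_pos_of_le_one_of_nonpos hw hw1 (by norm_num)
    simp only [bar, add_zero] at hb ⊢
    generalize 40 * K ^ 2 * ((T - s) ^ (15 / 4 : ℝ) * w 0 s y ^ (-(5 / 4) : ℝ)) = P1 at *
    have h5 : 300000 * K ^ 2 ≤ (1 / m + 300000 * K ^ 2) * w 0 s y ^ (-(1 / 8) : ℝ) := by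
      have : 0 < 1 / m := by positivity
      nlinarith [sq_nonneg K]
    generalize (1 / m + 300000 * K ^ 2) * w 0 s y ^ (-(1 / 8) : ℝ) = P2 at *
    have h6 : ev (env w k s y) (xRE e) ^ 2 ≤ η * (P1 + P2) / w 0 s y := by
      rw [le_div_iff₀ hw, ← sq_abs, ← hb]
      nlinarith [abs_nonneg (ev (env w k s y) (xRE e))]
    have hK2 : 0 < K ^ 2 := by positivity
    have h7 : P2 ≤ P2 / w 0 s y := by rw [le_div_iff₀ hw]; nlinarith
    have h8 : η * (P2 / w 0 s y) ≤ 1 / 1000 * (P2 / w 0 s y) :=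
      mul_le_mul_of_nonneg_right hη (by linarith)
    have e1 : η * (P1 + P2) / w 0 s y = η * P1 / w 0 s y + η * (P2 / w 0 s y) := by ring
    have e2 : 2 * η * P1 / w 0 s y = 2 * (η * P1 / w 0 s y) := by ring
    have e3 : P2 * (1 / 9 / w 0 s y) = 1 / 9 * (P2 / w 0 s y) := by ring
    rw [e2, e3]; rw [e1] at h6
    linarith
  -- second pass
  obtain ⟨C3, hC3⟩ : ∃ C3, C3 = 40 * K ^ 2 * c ^ (-(5 / 4) : ℝ) := ⟨_, rfl⟩
  obtain ⟨C4, hC4⟩ : ∃ C4, C4 = (1 / m + 300000 * K ^ 2) * c ^ (-(1 / 8) : ℝ) := ⟨_, rfl⟩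
  rw [← hC3, ← hC4] at s1 ⊢
  obtain ⟨C6, hC6⟩ : ∃ C6, C6 = 400001 * K ^ 2 + 4 * (20 * C3 ^ 2 + C4 ^ 2) := ⟨_, rfl⟩
  rw [← hC6]
  have hC60 : 0 < C6 := by rw [hC6]; positivity
  have hq : ∀ s ∈ Icc t0 t1, (T - s) ^ (1 / 4 : ℝ) ≤ 4 ∧
      1 / 20 ≤ (T - s) ^ (1 / 4 : ℝ) / (T - s) ∧
      ((T - s) ^ (-(3 / 8) : ℝ)) ^ 2 = (T - s) ^ (1 / 4 : ℝ) / (T - s) := by
    intro s hs
    have hτs : 0 < T - s := by linarith [hs.2, h.hT]
    have hτ1 : T - s ≤ 20 := by linarith [hs.1]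
    obtain ⟨v, hv, f1, f2, f3⟩ := rt8 hτs
    have g1 : (T - s) ^ (1 / 4 : ℝ) = v ^ 2 := by rw [← f2 2]; norm_num
    have g2 : (T - s) ^ (-(3 / 8) : ℝ) = (v ^ 3)⁻¹ := by rw [← f3 3]; norm_num
    have hv2 : v ≤ 3 / 2 := by
      simpa using le_of_pow8 (s := v) (u := 1) (a := 3 / 2) zero_le_one (by norm_num)
        (by rw [← f1]; norm_num; linarith)
    rw [g1, g2, f1]
    refine ⟨by nlinarith, ?_, by field_simp⟩
    have : v ^ 6 ≤ 20 := (pow_le_pow_left₀ hv.le hv2 6).trans (by norm_num)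
    rw [le_div_iff₀ (by positivity)]
    calc 1 / 20 * v ^ 8 = v ^ 6 / 20 * v ^ 2 := by ring
      _ ≤ 1 * v ^ 2 := mul_le_mul_of_nonneg_right (by linarith) (by positivity)
      _ = v ^ 2 := one_mul _
  have := r_gen h hK hKC (K2 := 0) le_rfl
    (G := fun s => 1 / m + 1 + 20 * C6 - 4 * C6 * (T - s) ^ (1 / 4 : ℝ))
    (G' := fun s => C6 * ((T - s) ^ (1 / 4 : ℝ) / (T - s))) (fun s hs => ?_)
    (fun s hs => by nlinarith [(hq s hs).1]) ?_ ht hx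
  · refine this.trans ?_
    simp only [bar, zero_mul, add_zero]
    have h1 := mul_le_mul_of_nonneg_left (hP1 t x ht hx).1 (by positivity : 0 ≤ 40 * K ^ 2)
    have hτs : 0 < T - t := by linarith [ht.2, h.hT]
    have h2 : 0 ≤ 4 * C6 * (T - t) ^ (1 / 4 : ℝ) := by positivity
    linarith
  · refine HasDerivAt.congr_deriv
      (((hasDerivAt_tau (1 / 4) (hs.2.trans_lt h.hT)).const_mul (4 * C6)).const_sub _) ?_
    ring
  · intro s y hs hy _
    have hw := h.sol.pos s y hs hy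
    have hτs : 0 < T - s := by linarith [hs.2, h.hT]
    have hη0 : 0 ≤ η := h.he.trans (h.good s y hs hy).he
    obtain ⟨-, q2, q3⟩ := hq s hs
    have h1 := pow_le_pow_left₀ (abs_nonneg _) (s1 s y hs hy) 2
    rw [sq_abs] at h1
    have h2 : 0 ≤ 2 * η * (40 * K ^ 2 * ((T - s) ^ (15 / 4 : ℝ) * w 0 s y ^ (-(5 / 4) : ℝ))) /
        w 0 s y := by positivity
    have h3 : (C3 + C4 * (T - s) ^ (-(3 / 8) : ℝ)) ^ 2 ≤
        2 * C3 ^ 2 + 2 * C4 ^ 2 * ((T - s) ^ (1 / 4 : ℝ) / (T - s)) := by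
      rw [← q3]; nlinarith [sq_nonneg (C3 - C4 * (T - s) ^ (-(3 / 8) : ℝ))]
    generalize (T - s) ^ (1 / 4 : ℝ) / (T - s) = Q at *
    have hK2 : 0 < K ^ 2 := by positivity
    have h4 := mul_le_mul_of_nonneg_left q2 hK2.le
    have h5 := mul_le_mul_of_nonneg_left q2 (sq_nonneg C3)
    simp only [zero_mul, add_zero]
    rw [hC6]
    linarith

theorem rpow_split {x : ℝ} (hx : 0 < x) : x ^ (11 / 4 : ℝ) = x ^ 2 * x ^ (3 / 4 : ℝ) ∧
    x ^ (7 / 4 : ℝ) = x * x ^ (3 / 4 : ℝ) := by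
  obtain ⟨u, hu, e1, e2, -⟩ := rt8 hx
  have a1 : x ^ (11 / 4 : ℝ) = u ^ 22 := by rw [← e2 22]; norm_num
  have a2 : x ^ (7 / 4 : ℝ) = u ^ 14 := by rw [← e2 14]; norm_num
  have a3 : x ^ (3 / 4 : ℝ) = u ^ 6 := by rw [← e2 6]; norm_num
  rw [a1, a2, a3, e1]
  constructor <;> ring

theorem post : PostStmt := by
  intro C0
  obtain ⟨e0, C, he0, hC1, hgood⟩ := exists_good C0 (1 / 1000) (by norm_num)
  refine ⟨e0, he0, ?_⟩
  intro e t0 T X c w wt k kt he hee hT hX hX1 hc hsol hin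
  have hX0 : 0 < X := by linarith
  have hτ : T - t0 ≤ 20 := by linarith
  obtain ⟨c', hc'⟩ : ∃ c', c' = min c (1 / 100000) := ⟨_, rfl⟩
  have hc0 : 0 < c' := by rw [hc']; positivity
  obtain ⟨m, hm⟩ : ∃ m, m = min (c' * (T - t0) ^ 3) (X / 2) := ⟨_, rfl⟩
  have hm0 : 0 < m := by
    have : 0 < T - t0 := by linarith
    rw [hm]; positivity
  -- outer region
  have hout : ∀ t ∈ Ico t0 T, ∀ x ∈ Icc ((T - t) / 200) X, |w 0 t x - x| ≤ x / 10 := by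
    intro t ht x hx
    have hx0 : 0 < x := by linarith [hx.1, ht.2]
    have h1 := ((hsol t ht).2.2.1 x hx).1
    have h2 : x ^ (3 / 4 : ℝ) ≤ 1 := Real.rpow_le_one hx0.le (by linarith [hx.2]) (by norm_num)
    rw [(rpow_split hx0).1] at h1
    have h3 := mul_le_mul_of_nonneg_left h2 (sq_nonneg x)
    nlinarith [hx.2]
  have hinn : ∀ t ∈ Ico t0 T, ∀ x ∈ Icc 0 ((T - t) / 200), 60 * w 0 t x ≤ T - t := by
    intro t ht x hx
    have hr : (T - t) / 200 ≤ X := by linarith [ht.1]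
    have hr0 : 0 ≤ (T - t) / 200 := by linarith [ht.2]
    have h1 := abs_le.1 (hout t ht _ ⟨le_rfl, hr⟩)
    have h2 := Convex.norm_image_sub_le_of_norm_hasDerivWithin_le (f := w 0 t) (f' := w 1 t)
      (C := 2) (s := Icc 0 ((T - t) / 200))
      (fun y hy => ((hsol t ht).1.jw.dx 0 t y ⟨ht.1, le_rfl⟩ ⟨hy.1, hy.2.trans hr⟩).mono
        (Icc_subset_Icc le_rfl hr))
      (fun y hy => (hin t ht y hy).2.2) (convex_Icc _ _) ⟨hr0, le_rfl⟩ hx
    rw [Real.norm_eq_abs, Real.norm_eq_abs, abs_of_nonpos (by linarith [hx.2] :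
      x - (T - t) / 200 ≤ 0)] at h2
    linarith [(abs_le.1 h2).2, hx.1, ht.2]
  have hlow : ∀ t ∈ Ico t0 T, ∀ x ∈ Icc 0 X, c' * (T - t) ^ 3 ≤ w 0 t x := by
    intro t ht x hx
    have hτt : 0 < T - t := by linarith [ht.2]
    rcases le_total x ((T - t) / 200) with h1 | h1
    · refine le_trans ?_ (hin t ht x ⟨hx.1, h1⟩).2.1
      exact mul_le_mul_of_nonneg_right (hc' ▸ min_le_left _ _) (by positivity)
    · have h2 := abs_le.1 (hout t ht x ⟨h1, hx.2⟩)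
      have h3 : c' * (T - t) ^ 3 ≤ 1 / 100000 * (T - t) ^ 3 :=
        mul_le_mul_of_nonneg_right (hc' ▸ min_le_right _ _) (by positivity)
      have h4 : (T - t) ^ 2 ≤ 20 ^ 2 := pow_le_pow_left₀ hτt.le (by linarith [ht.1]) 2
      nlinarith
  have hsu : ∀ t1 ∈ Ico t0 T, Su e t0 t1 T X (1 / 1000) C m w wt k kt := by
    intro t1 ht1
    have hI : ∀ t ∈ Icc t0 t1, t ∈ Ico t0 T := fun t ht => ⟨ht.1, ht.2.trans_lt ht1.2⟩
    have hg := hgood he hee hX0 (hsol t1 ht1).1 (hsol t1 ht1).2.1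
    refine ⟨(hsol t1 ht1).1, he.le, le_rfl, ht1.2, hX, hm0, hg, fun t x ht hx => ?_,
      fun t x ht hx => hinn t (hI t ht) x hx, fun t x ht hx => ?_, fun x hx => ?_, fun t ht => ?_⟩
    · rcases le_total x ((T - t) / 200) with h1 | h1
      · have := hinn t (hI t ht) x ⟨hx.1, h1⟩
        have := (hin t (hI t ht) x ⟨hx.1, h1⟩).1
        constructor <;> linarith [ht.1, hx.1]
      · have h2 := abs_le.1 (hout t (hI t ht) x ⟨h1, hx.2⟩)
        constructor <;> linarith [hx.2]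
    · have hx0 : 0 < x := by linarith [hx.1, (hI t ht).2]
      have hx' : x ∈ Icc 0 X := ⟨hx0.le, hx.2⟩
      have hw := (hsol t1 ht1).1.pos t x ht hx'
      obtain ⟨a1, a2, a3⟩ := (hsol t (hI t ht)).2.2.1 x hx
      rw [(rpow_split hx0).1] at a1
      rw [(rpow_split hx0).2] at a2
      have h2 := ((hsol t1 ht1).2.1 t x ht hx').2.2.2.2
      have h3 := outer_a (hg t x ht hx') le_rfl he.le hw hx0.le h2 (by positivity) a1 a2 a3
      have h4 : x ^ (3 / 4 : ℝ) ≤ 2 * w 0 t x ^ (3 / 4 : ℝ) := by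
        refine (Real.rpow_le_rpow hx0.le h2 (by norm_num)).trans ?_
        rw [Real.mul_rpow (by norm_num) hw.le]
        refine mul_le_mul_of_nonneg_right ?_ (by positivity)
        simpa using Real.rpow_le_rpow_of_exponent_le (by norm_num : (1 : ℝ) ≤ 2)
          (by norm_num : (3 / 4 : ℝ) ≤ 1)
      rw [ev_xAH, ev_xCH]
      linarith
    · exact (hm ▸ min_le_left _ _ : m ≤ _).trans (hlow t0 ⟨le_rfl, hT⟩ x hx)
    · have := ((hsol t1 ht1).2.1 t X ht ⟨hX0.le, le_rfl⟩).2.2.2.2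
      have h2 : m ≤ X / 2 := hm ▸ min_le_right _ _
      linarith
  obtain ⟨K, hK⟩ : ∃ K, K = 8 + C / m ^ 2 := ⟨_, rfl⟩
  have hK8 : 8 ≤ K := by
    have : 0 ≤ C / m ^ 2 := by positivity
    linarith
  have hKC : C < K * m ^ 2 := by
    have : 0 < m ^ 2 := by positivity
    rw [hK, add_mul, div_mul_cancel₀ _ this.ne']; linarith
  refine ⟨(40 * K ^ 2 * c' ^ (-(5 / 4) : ℝ) + (1 / m + 1 + 20 * (400001 * K ^ 2 +
        4 * (20 * (40 * K ^ 2 * c' ^ (-(5 / 4) : ℝ)) ^ 2 +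
          ((1 / m + 300000 * K ^ 2) * c' ^ (-(1 / 8) : ℝ)) ^ 2)))) / e, fun t ht x hx => ?_⟩
  obtain ⟨C', h1, h2⟩ := r_bound (hsu t ht) hK8 hKC hc0 hτ
    fun s y hs hy => hlow s ⟨hs.1, hs.2.trans_lt ht.2⟩ y hy
  have h3 := h1 t x ⟨ht.1, le_rfl⟩ hx
  rw [ev_xRE, rE_eq he.ne', abs_mul, abs_of_pos he, h2] at h3
  rw [le_div_iff₀' he]
  exact h3

end

end Crest.Agent.N207.S.In
end

-- ▼ part N207/S/Da/Seq
section
/-!
Row 207 (S0320), block DATA (helper81): derivative sequences of the initial data and their sizes.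
All sequences are written in the variable `y = x + om`.
-/

set_option autoImplicit false

open Set Filter
open scoped Topology ContDiff

noncomputable section
namespace Crest.Agent.N207.S.Da

open Out

/-- jets from a chain of derivatives. -/
lemma jet_eq {E : Type*} [NormedAddCommGroup E] [NormedSpace ℝ E] {F : ℕ → ℝ → E} {f : ℝ → E}
    (hF : ∀ j, ∀ x ∈ Icc (0 : ℝ) 1, HasDerivAt (F j) (F (j + 1) x) x)
    (hf : ∀ x ∈ Icc (0 : ℝ) 1, f x = F 0 x) (j : ℕ) : ∀ x ∈ Icc (0 : ℝ) 1, Ex.jet j f x = F j x := by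
  induction j with
  | zero => intro x hx; simpa [Ex.jet] using hf x hx
  | succ j ih =>
    intro x hx
    unfold Ex.jet at ih ⊢
    rw [iteratedDerivWithin_succ, derivWithin_congr (f := F j) ih (ih x hx)]
    exact (hF j x hx).hasDerivWithinAt.derivWithin (uniqueDiffOn_Icc zero_lt_one x hx)

/-- the cut-off `χ` (`= 1` on `y ≤ 2`, `= 0` on `y ≥ 3`). -/
def chi (y : ℝ) : ℝ := Real.smoothTransition (3 - y)

lemma contDiff_chi : ContDiff ℝ ∞ chi := Real.smoothTransition.contDiff.comp (by fun_prop)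

/-- derivatives of `χ`. -/
def chiD (j : ℕ) : ℝ → ℝ := deriv^[j] chi

lemma isSeq_chiD : IsSeq univ chiD :=
  isSeq_iter isOpen_univ fun n => (contDiff_chi.of_le (by exact_mod_cast le_top)).contDiffOn

/-- jets of the constant `1`. -/
def oneS : ℕ → ℝ → ℝ
  | 0, _ => 1
  | _ + 1, _ => 0

lemma isSeq_oneS (U : Set ℝ) : IsSeq U oneS := by
  intro j x _
  rcases j with _ | j <;> exact hasDerivAt_const x _

lemma isSeq_zero (U : Set ℝ) : IsSeq U (fun _ _ => 0) := fun _ x _ => hasDerivAt_const x _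

lemma chiD_cont (j : ℕ) : Continuous (chiD j) :=
  continuous_iff_continuousAt.2 fun x => (isSeq_chiD j x (mem_univ x)).continuousAt

lemma chiD_right (j : ℕ) {y : ℝ} (hy : 3 < y) : chiD j y = 0 :=
  IsSeq.unique isOpen_Ioi (isSeq_chiD.mono (subset_univ _)) (isSeq_zero (Ioi 3))
    (fun x hx => Real.smoothTransition.zero_of_nonpos (by have : 3 < x := hx; linarith)) j y hy

lemma chi_left {y : ℝ} (hy : y ≤ 2) : chi y = 1 :=
  Real.smoothTransition.one_of_one_le (by linarith)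

lemma chi_nonneg (y : ℝ) : 0 ≤ chi y := Real.smoothTransition.nonneg _
lemma chi_le_one (y : ℝ) : chi y ≤ 1 := Real.smoothTransition.le_one _

lemma exists_chi_bound (m : ℕ) : ∃ C : ℝ, 1 ≤ C ∧ ∀ j ≤ m, ∀ y, 0 ≤ y → |chiD j y| ≤ C := by
  have h1 : ∀ j, ∃ C : ℝ, ∀ y, 0 ≤ y → |chiD j y| ≤ C := by
    intro j
    obtain ⟨C, hC⟩ := isCompact_Icc.exists_bound_of_continuousOn (s := Icc (0 : ℝ) 3)
      (chiD_cont j).continuousOn
    refine ⟨max C 0, fun y hy => ?_⟩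
    rcases le_or_gt y 3 with h | h
    · exact (hC y ⟨hy, h⟩).trans (le_max_left _ _)
    · rw [chiD_right j h, abs_zero]; exact le_max_right _ _
  choose C hC using h1
  refine ⟨1 + ∑ j ∈ Finset.range (m + 1), |C j|, ?_, fun j hj y hy => ?_⟩
  · have : 0 ≤ ∑ j ∈ Finset.range (m + 1), |C j| := Finset.sum_nonneg fun _ _ => abs_nonneg _
    linarith
  · have := Finset.single_le_sum (f := fun j => |C j|) (fun _ _ => abs_nonneg _)
      (Finset.mem_range.2 (Nat.lt_succ_of_le hj))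
    linarith [hC j y hy, le_abs_self (C j)]

/-- jets of `y ↦ χ((y - om)/X)`. -/
def cS (X om : ℝ) : ℕ → ℝ → ℝ := fun j y => chiD j ((y - om) / X) / X ^ j

lemma isSeq_cS (X om : ℝ) (U : Set ℝ) : IsSeq U (cS X om) := by
  intro j y _
  have h1 : HasDerivAt (fun y : ℝ => (y - om) / X) (1 / X) y :=
    ((hasDerivAt_id y).sub_const om).div_const X
  have h2 := ((isSeq_chiD j _ (mem_univ ((y - om) / X))).comp y h1).div_const (X ^ j)
  refine h2.congr_deriv ?_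
  simp only [cS, pow_succ]
  ring

lemma cS_right {X om y : ℝ} (hX : 0 < X) (hy : 3 * X < y - om) (j : ℕ) : cS X om j y = 0 := by
  simp only [cS]
  rw [chiD_right j (by rw [lt_div_iff₀ hX]; exact hy), zero_div]

lemma sz_cS {X om y C : ℝ} {m : ℕ} (hX : 0 < X) (ho0 : 0 ≤ om) (ho : om ≤ X) (hy : om ≤ y)
    (hC : ∀ j ≤ m, ∀ y, 0 ≤ y → |chiD j y| ≤ C) : Sz m (4 ^ m * C) (cS X om) y := by
  intro j hj
  have hC0 : 0 ≤ C := (abs_nonneg _).trans (hC 0 (Nat.zero_le _) 0 le_rfl)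
  rcases le_or_gt (y - om) (3 * X) with h | h
  · have h1 := hC j hj ((y - om) / X) (div_nonneg (by linarith) hX.le)
    have h2 : (y / X) ^ j ≤ 4 ^ m :=
      (pow_le_pow_left₀ (div_nonneg (by linarith) hX.le)
        (by rw [div_le_iff₀ hX]; linarith) j).trans (pow_le_pow_right₀ (by norm_num) hj)
    have e : |cS X om j y| * y ^ j = (y / X) ^ j * |chiD j ((y - om) / X)| := by
      simp only [cS, abs_div, abs_of_pos (pow_pos hX j), div_pow]; ring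
    rw [e]
    exact mul_le_mul h2 h1 (abs_nonneg _) (by positivity)
  · rw [cS_right hX h, abs_zero, zero_mul]; positivity

/-- jets of the cubic `Q` (variable `x`). -/
def QS (T : ℝ) (a : Fin 3 → ℝ) : ℕ → ℝ → ℝ
  | 0, x => (T - x) ^ 3 / 2 + (a 0 * T ^ 3 + a 1 * T ^ 2 * (x - T) + a 2 * T * (x - T) ^ 2 / 2) / 50
  | 1, x => -(3 / 2) * (T - x) ^ 2 + (a 1 * T ^ 2 + a 2 * T * (x - T)) / 50
  | 2, x => 3 * (T - x) + a 2 * T / 50
  | 3, _ => -3
  | _ + 4, _ => 0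

lemma isSeq_QS (T : ℝ) (a : Fin 3 → ℝ) (U : Set ℝ) : IsSeq U (QS T a) := by
  intro j x _
  have h1 : HasDerivAt (fun x : ℝ => T - x) (-1) x := by simpa using (hasDerivAt_id x).const_sub T
  have h2 : HasDerivAt (fun x : ℝ => x - T) 1 x := (hasDerivAt_id x).sub_const T
  match j with
  | 0 =>
    exact (((h1.pow 3).div_const 2).add ((((hasDerivAt_const x (a 0 * T ^ 3)).add
      (h2.const_mul (a 1 * T ^ 2))).add (((h2.pow 2).const_mul (a 2 * T)).div_const 2)).div_const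
      50)).congr_deriv (by simp only [QS]; push_cast; ring)
  | 1 =>
    exact (((h1.pow 2).const_mul (-(3 / 2))).add (((hasDerivAt_const x (a 1 * T ^ 2)).add
      (h2.const_mul (a 2 * T))).div_const 50)).congr_deriv (by simp only [QS]; push_cast; ring)
  | 2 =>
    exact ((h1.const_mul 3).add (hasDerivAt_const x (a 2 * T / 50))).congr_deriv
      (by simp only [QS]; ring)
  | 3 => exact hasDerivAt_const x _
  | _ + 4 => exact hasDerivAt_const x _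

lemma QS_bound {T x M : ℝ} {a : Fin 3 → ℝ} (ha : ∀ i, |a i| ≤ 1) (hT : 0 ≤ T) (hx : 0 ≤ x)
    (hTM : T ≤ M) (hxM : x ≤ M) :
    |QS T a 0 x| ≤ M ^ 3 ∧ |QS T a 1 x| ≤ 2 * M ^ 2 ∧ |QS T a 2 x| ≤ 4 * M := by
  have hM : 0 ≤ M := hT.trans hTM
  have h1 : |x - T| ≤ M := abs_le.2 ⟨by linarith, by linarith⟩
  have h2 : |T - x| ≤ M := by rwa [abs_sub_comm]
  have hT' : |T| ≤ M := by rwa [abs_of_nonneg hT]
  have p : ∀ (u : ℝ) (n : ℕ), |u| ≤ M → |u ^ n| ≤ M ^ n := fun u n h => by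
    rw [abs_pow]; exact pow_le_pow_left₀ (abs_nonneg _) h n
  have q : ∀ (i : Fin 3) (u v A B : ℝ), |u| ≤ A → |v| ≤ B → |a i * u * v| ≤ A * B :=
    fun i u v A B hu hv => by
      rw [abs_mul, abs_mul]
      have := mul_le_mul (mul_le_mul (ha i) hu (abs_nonneg _) zero_le_one) hv (abs_nonneg _)
        (by have := (abs_nonneg u).trans hu; positivity)
      linarith
  have b0 := abs_le.1 (q 0 (T ^ 3) 1 _ _ (p T 3 hT') (le_of_eq abs_one))
  have b1 := abs_le.1 (q 1 (T ^ 2) (x - T) _ _ (p T 2 hT') h1)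
  have b2 := abs_le.1 (q 2 T ((x - T) ^ 2) _ _ hT' (p _ 2 h1))
  have b3 := abs_le.1 (q 1 (T ^ 2) 1 _ _ (p T 2 hT') (le_of_eq abs_one))
  have b4 := abs_le.1 (q 2 T (x - T) _ _ hT' h1)
  have b5 := abs_le.1 (q 2 T 1 _ _ hT' (le_of_eq abs_one))
  have c3 := abs_le.1 (p _ 3 h2)
  have c2 := abs_le.1 (p _ 2 h2)
  have c1 := abs_le.1 h2
  have m3 : 0 ≤ M ^ 3 := by positivity
  have m2 : 0 ≤ M ^ 2 := by positivity
  simp only [QS]
  refine ⟨abs_le.2 ⟨?_, ?_⟩, abs_le.2 ⟨?_, ?_⟩, abs_le.2 ⟨?_, ?_⟩⟩ <;> nlinarith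

/-- size of `Q` for any weight `y ≤ 2M`. -/
lemma QS_wt {T x M y : ℝ} {a : Fin 3 → ℝ} (ha : ∀ i, |a i| ≤ 1) (hT : 0 ≤ T) (hx : 0 ≤ x)
    (hTM : T ≤ M) (hxM : x ≤ M) (hy : 0 ≤ y) (hyM : y ≤ 2 * M) (j : ℕ) :
    |QS T a j x| * y ^ j ≤ 24 * M ^ 3 := by
  have hM : 0 ≤ M := hT.trans hTM
  obtain ⟨h0, h1, h2⟩ := QS_bound ha hT hx hTM hxM
  have m3 : 0 ≤ M ^ 3 := by positivity
  match j with
  | 0 => simp only [pow_zero, mul_one]; linarith
  | 1 =>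
    have := mul_le_mul h1 hyM hy (by positivity)
    simp only [pow_one]; nlinarith
  | 2 =>
    have := mul_le_mul h2 (pow_le_pow_left₀ hy hyM 2) (by positivity) (by positivity)
    nlinarith
  | 3 =>
    have := pow_le_pow_left₀ hy hyM 3
    simp only [QS, abs_neg, Nat.abs_ofNat]; nlinarith
  | _ + 4 => simp only [QS, abs_zero, zero_mul]; positivity

/-- jets of `η₀` in the variable `y = x + om`. -/
def ES (X om α T : ℝ) (a : Fin 3 → ℝ) : ℕ → ℝ → ℝ :=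
  pr (pr (cS X om) (pw α)) fun j y => QS T a j (y - om)

lemma isSeq_shift {f : ℕ → ℝ → ℝ} {U V : Set ℝ} (c : ℝ) (hf : IsSeq V f)
    (h : ∀ y ∈ U, y + c ∈ V) : IsSeq U fun j y => f j (y + c) := fun j y hy =>
  (hf j _ (h y hy)).comp_add_const y c

lemma isSeq_ES (X om α T : ℝ) (a : Fin 3 → ℝ) : IsSeq (Ioi 0) (ES X om α T a) :=
  ((isSeq_cS X om _).pr (isSeq_pw α subset_rfl)).pr fun j y _ =>
    (isSeq_QS T a univ j _ (mem_univ (y - om))).comp_sub_const y om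

lemma ES_zero (X om α T : ℝ) (a : Fin 3 → ℝ) (x : ℝ) :
    ES X om α T a 0 (x + om) = chi (x / X) * (x + om) ^ α * QS T a 0 x := by
  simp only [ES, pr_zero, cS, pw_zero, add_sub_cancel_right, pow_zero, div_one]; rfl

lemma sz_ES {X om α T x M C : ℝ} {a : Fin 3 → ℝ} {m : ℕ} (hX : 0 < X) (ho0 : 0 < om) (ho : om ≤ X)
    (hα : |α| ≤ 1) (ha : ∀ i, |a i| ≤ 1) (hoT : om ≤ T) (hx : 0 ≤ x) (hTM : T ≤ M) (hxM : x ≤ M)
    (hC : ∀ j ≤ m, ∀ y, 0 ≤ y → |chiD j y| ≤ C) :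
    Sz m (2 ^ m * (2 ^ m * (4 ^ m * C) * (m.factorial * (x + om) ^ α)) * (24 * M ^ 3))
      (ES X om α T a) (x + om) := by
  have hy : 0 < x + om := by linarith
  refine Sz.pr hy (Sz.pr hy (sz_cS hX ho0.le ho (by linarith) hC) (sz_pw hα hy m)) fun j _ => ?_
  simp only [add_sub_cancel_right]
  exact QS_wt ha (by linarith) hx hTM hxM hy.le (by linarith) j

end Crest.Agent.N207.S.Da
end
private theorem rz_08fab81069 : type_of% @_root_.Crest.Agent.N207.S.Da.QS.eq_1 := @_root_.Crest.Agent.N207.S.Da.QS.eq_1 -- L113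
private theorem rz_8db17c051d : type_of% @_root_.Crest.Agent.N207.S.Da.oneS.eq_1 := @_root_.Crest.Agent.N207.S.Da.oneS.eq_1 -- L41
end

-- ▼ part N207/S/Da/Bd
section
/-!
Row 207 (S0320), block DATA (helper81): pointwise bounds of the initial data.
`T = s^20`, `om = s^56 = T^(14/5)`.
-/

set_option autoImplicit false

open Set Filter
open scoped Topology ContDiff

noncomputable section
namespace Crest.Agent.N207.S.Da

open Out

/-- the parameters. -/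
structure Pm (X s α : ℝ) : Prop where
  s0 : 0 < s
  sX : s ≤ X
  X1 : X ≤ 1 / 10 ^ 6
  α0 : -(4 / 10 ^ 6) ≤ α
  α1 : α ≤ 0

namespace Pm

variable {X s α x : ℝ} {a : Fin 3 → ℝ}

lemma X0 (h : Pm X s α) : 0 < X := h.s0.trans_le h.sX
lemma s6 (h : Pm X s α) : s ≤ 1 / 10 ^ 6 := h.sX.trans h.X1
lemma s1 (h : Pm X s α) : s ≤ 1 := h.s6.trans (by norm_num)
lemma pw_le (h : Pm X s α) {m n : ℕ} (hmn : m ≤ n) : s ^ n ≤ s ^ m :=
  pow_le_pow_of_le_one h.s0.le h.s1 hmn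
lemma pw_small (h : Pm X s α) {m n : ℕ} (hmn : m < n) : s ^ n ≤ s ^ m / 10 ^ 6 := by
  have h1 := h.pw_le (Nat.succ_le_of_lt hmn)
  have h2 := mul_le_mul_of_nonneg_left h.s6 (pow_pos h.s0 m).le
  rw [pow_succ] at h1
  linarith
lemma pw_le_X (h : Pm X s α) {n : ℕ} (hn : 1 ≤ n) : s ^ n ≤ X := by
  have := h.pw_le hn
  rw [pow_one] at this
  exact this.trans h.sX
lemma abs_α (h : Pm X s α) : |α| ≤ 1 := abs_le.2 ⟨by linarith [h.α0], by linarith [h.α1]⟩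

lemma ypow_le (h : Pm X s α) (hx : 0 ≤ x) : (x + s ^ 56) ^ α ≤ s⁻¹ := by
  have h0 := h.s0
  refine (Real.rpow_le_rpow_of_nonpos (pow_pos h0 56) (by linarith) h.α1).trans ?_
  rw [← Real.rpow_natCast, ← Real.rpow_mul h0.le, ← Real.rpow_neg_one]
  exact Real.rpow_le_rpow_of_exponent_ge h0 h.s1 (by push_cast; linarith [h.α0])

lemma ypow_le' (h : Pm X s α) (hx : 0 < x) (hx1 : x ≤ 1) {p : ℝ} (hp : p ≤ α) :
    (x + s ^ 56) ^ α ≤ x ^ p :=
  (Real.rpow_le_rpow_of_nonpos hx (by linarith [pow_pos h.s0 56]) h.α1).trans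
    (Real.rpow_le_rpow_of_exponent_ge hx hx1 hp)

lemma ypow_T (h : Pm X s α) (hx : 0 ≤ x) : (x + s ^ 56) ^ α * (s ^ 20) ^ 3 ≤ s ^ 59 := by
  have h0 := h.s0
  refine (mul_le_mul_of_nonneg_right (h.ypow_le hx) (by positivity)).trans (le_of_eq ?_)
  field_simp

/-- the key weight bound. -/
lemma key (h : Pm X s α) (hx : 0 ≤ x) (hx1 : x ≤ 1) :
    (x + s ^ 56) ^ α * max x (s ^ 20) ^ 3 ≤ x + s ^ 56 := by
  rcases le_total x (s ^ 20) with h1 | h1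
  · rw [max_eq_right h1]
    linarith [h.ypow_T hx, h.pw_le (show 56 ≤ 59 by norm_num)]
  · rw [max_eq_left h1]
    have hx0 : 0 < x := (pow_pos h.s0 20).trans_le h1
    have h2 := h.ypow_le' hx0 hx1 (p := -1) (by linarith [h.α0])
    rw [Real.rpow_neg_one] at h2
    have h3 := mul_le_mul_of_nonneg_right h2 (pow_pos hx0 3).le
    have h4 : x⁻¹ * x ^ 3 = x * x := by field_simp
    nlinarith [pow_pos h.s0 56]

lemma abs_eta (h : Pm X s α) (ha : ∀ i, |a i| ≤ 1) (hx : 0 ≤ x) {M : ℝ} (h1 : s ^ 20 ≤ M)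
    (h2 : x ≤ M) : |ES X (s ^ 56) α (s ^ 20) a 0 (x + s ^ 56)| ≤ (x + s ^ 56) ^ α * M ^ 3 := by
  have hy : 0 < (x + s ^ 56) ^ α := Real.rpow_pos_of_pos (by linarith [pow_pos h.s0 56]) _
  rw [ES_zero, abs_mul, abs_mul, abs_of_nonneg (chi_nonneg _), abs_of_pos hy]
  have h3 := (QS_bound ha (pow_pos h.s0 20).le hx h1 h2).1
  exact mul_le_mul (mul_le_of_le_one_left hy.le (chi_le_one _)) h3 (abs_nonneg _) hy.le

lemma eta_small (h : Pm X s α) (ha : ∀ i, |a i| ≤ 1) (hx : 0 ≤ x) (h1 : x ≤ s ^ 20) :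
    |ES X (s ^ 56) α (s ^ 20) a 0 (x + s ^ 56)| ≤ s ^ 56 :=
  (h.abs_eta ha hx le_rfl h1).trans ((h.ypow_T hx).trans (h.pw_le (by norm_num)))

lemma eta_far (h : Pm X s α) (a : Fin 3 → ℝ) (hx : 3 * X < x) :
    ES X (s ^ 56) α (s ^ 20) a 0 (x + s ^ 56) = 0 := by
  have := cS_right (om := s ^ 56) (y := x + s ^ 56) h.X0 (by linarith) 0
  simp only [ES, pr_zero, this, zero_mul]

lemma eta_big (h : Pm X s α) (ha : ∀ i, |a i| ≤ 1) (h1 : s ^ 20 ≤ x) :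
    |ES X (s ^ 56) α (s ^ 20) a 0 (x + s ^ 56)| ≤ x ^ 2 / 100 := by
  have hx0 : 0 < x := (pow_pos h.s0 20).trans_le h1
  rcases le_or_gt x (3 * X) with h2 | h2
  · have hX := h.X1
    refine (h.abs_eta ha hx0.le h1 le_rfl).trans ?_
    have h3 := h.ypow_le' hx0 (by linarith) (p := -(1 / 2)) (by linarith [h.α0])
    have h4 : x ^ (-(1 / 2) : ℝ) * x = x ^ (1 / 2 : ℝ) := by
      rw [← Real.rpow_add_one hx0.ne']; norm_num
    have h5 : x ^ (1 / 2 : ℝ) ≤ 1 / 100 := by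
      rw [← Real.sqrt_eq_rpow, Real.sqrt_le_left (by norm_num)]; linarith
    have h6 := mul_le_mul_of_nonneg_right h3 (pow_pos hx0 3).le
    have h7 : x ^ (-(1 / 2) : ℝ) * x ^ 3 = x ^ (1 / 2 : ℝ) * x ^ 2 := by rw [← h4]; ring
    nlinarith [pow_pos hx0 2]
  · rw [h.eta_far a h2, abs_zero]; positivity

lemma Q_in (h : Pm X s α) (ha : ∀ i, |a i| ≤ 1) (hx : x ∈ Icc 0 (s ^ 20 / 200)) :
    (s ^ 20) ^ 3 / 4 ≤ QS (s ^ 20) a 0 x ∧ QS (s ^ 20) a 0 x ≤ 3 / 4 * (s ^ 20) ^ 3 ∧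
      QS (s ^ 20) a 1 x ≤ 0 := by
  have hT := pow_pos h.s0 20
  generalize s ^ 20 = T at hx hT ⊢
  obtain ⟨u, rfl⟩ : ∃ u, x = T * u := ⟨x / T, by field_simp⟩
  have u0 : 0 ≤ u := by have := hx.1; by_contra hc; nlinarith
  have u1 : u ≤ 1 / 200 := by have := hx.2; by_contra hc; nlinarith
  have a0 := abs_le.1 (ha 0)
  have a1 := abs_le.1 (ha 1)
  have a2 := abs_le.1 (ha 2)
  have e0 : QS T a 0 (T * u) = T ^ 3 * ((1 - u) ^ 3 / 2 +
      (a 0 - a 1 * (1 - u) + a 2 * (1 - u) ^ 2 / 2) / 50) := by simp only [QS]; ring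
  have e1 : QS T a 1 (T * u) = T ^ 2 * (-(3 / 2) * (1 - u) ^ 2 + (a 1 - a 2 * (1 - u)) / 50) := by
    simp only [QS]; ring
  rw [e0, e1]
  generalize hv : 1 - u = v
  have v0 : 199 / 200 ≤ v := by linarith
  have v1 : v ≤ 1 := by linarith
  have v2 : 9 / 10 ≤ v ^ 2 := by nlinarith
  have v2' : v ^ 2 ≤ 1 := by nlinarith
  have v3 : 8 / 10 ≤ v ^ 3 := by nlinarith
  have v3' : v ^ 3 ≤ 1 := by nlinarith
  have b1 : -1 ≤ a 1 * v ∧ a 1 * v ≤ 1 := by constructor <;> nlinarith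
  have b2 : -1 ≤ a 2 * v ^ 2 ∧ a 2 * v ^ 2 ≤ 1 := by constructor <;> nlinarith
  have b3 : -1 ≤ a 2 * v ∧ a 2 * v ≤ 1 := by constructor <;> nlinarith
  have T3 := pow_pos hT 3
  have T2 := pow_pos hT 2
  refine ⟨?_, ?_, ?_⟩
  · have : 1 / 4 ≤ v ^ 3 / 2 + (a 0 - a 1 * v + a 2 * v ^ 2 / 2) / 50 := by linarith
    nlinarith
  · have : v ^ 3 / 2 + (a 0 - a 1 * v + a 2 * v ^ 2 / 2) / 50 ≤ 3 / 4 := by linarith
    nlinarith
  · have : -(3 / 2) * v ^ 2 + (a 1 - a 2 * v) / 50 ≤ 0 := by linarith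
    nlinarith

lemma ES_in (h : Pm X s α) (a : Fin 3 → ℝ) (hx : 0 ≤ x) (h2 : x < 2 * X) (j : ℕ) :
    ES X (s ^ 56) α (s ^ 20) a j (x + s ^ 56) =
      pr (pw α) (fun j y => QS (s ^ 20) a j (y - s ^ 56)) j (x + s ^ 56) := by
  have ho := pow_pos h.s0 56
  refine IsSeq.unique (U := Ioo 0 (2 * X + s ^ 56)) isOpen_Ioo
    ((isSeq_ES _ _ _ _ _).mono fun y hy => hy.1)
    ((isSeq_pw α fun y hy => hy.1).pr fun j y _ =>
      (isSeq_QS _ a univ j _ (mem_univ (y - s ^ 56))).comp_sub_const y _) (fun y hy => ?_) j _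
    ⟨by linarith, by linarith⟩
  have h3 : chiD 0 ((y - s ^ 56) / X) = 1 :=
    chi_left (by rw [div_le_iff₀ h.X0]; linarith [hy.2])
  simp only [ES, pr_zero, cS, h3]; ring

lemma eta_in (h : Pm X s α) (ha : ∀ i, |a i| ≤ 1) (hx : x ∈ Icc 0 (s ^ 20 / 200)) :
    (s ^ 20) ^ 3 / 4 ≤ ES X (s ^ 56) α (s ^ 20) a 0 (x + s ^ 56) ∧
    (0 < x → ES X (s ^ 56) α (s ^ 20) a 0 (x + s ^ 56) ≤
      3 / 4 * (s ^ 20) ^ 3 * x ^ (-(1 / 10) : ℝ)) ∧
    |ES X (s ^ 56) α (s ^ 20) a 1 (x + s ^ 56)| ≤ 1 / 2 ∧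
    ES X (s ^ 56) α (s ^ 20) a 1 (x + s ^ 56) ≤ 0 := by
  have ho := pow_pos h.s0 56
  have hT := pow_pos h.s0 20
  have hTX := h.pw_le_X (n := 20) (by norm_num)
  have hoX := h.pw_le_X (n := 56) (by norm_num)
  have hX1 := h.X1
  have hy : 0 < x + s ^ 56 := by linarith [hx.1]
  have hx2 : x < 2 * X := by linarith [hx.2]
  have hxT : x ≤ s ^ 20 := by linarith [hx.2]
  obtain ⟨q0, q1, q2⟩ := h.Q_in ha hx
  obtain ⟨-, q3, -⟩ := QS_bound ha hT.le hx.1 le_rfl hxT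
  have T3 := pow_pos hT 3
  have p0 : 0 < (x + s ^ 56) ^ α := Real.rpow_pos_of_pos hy _
  have p1 : 1 ≤ (x + s ^ 56) ^ α :=
    Real.one_le_rpow_of_pos_of_le_one_of_nonpos hy (by linarith) h.α1
  have k1 := h.key hx.1 (by linarith)
  rw [max_eq_right hxT] at k1
  have k2 := h.ypow_T hx.1
  rw [h.ES_in a hx.1 hx2, h.ES_in a hx.1 hx2, pr_zero, pr_one, pw_zero, pw_one _ hy]
  simp only [add_sub_cancel_right]
  have k3 : 0 ≤ (x + s ^ 56) ^ α / (x + s ^ 56) * QS (s ^ 20) a 0 x := by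
    have : 0 ≤ QS (s ^ 20) a 0 x := by linarith
    positivity
  have k4 : (x + s ^ 56) ^ α / (x + s ^ 56) * QS (s ^ 20) a 0 x ≤ 1 := by
    rw [div_mul_eq_mul_div, div_le_one hy]; nlinarith
  have k5 : -(1 / 4) ≤ (x + s ^ 56) ^ α * QS (s ^ 20) a 1 x := by
    have k6 : (x + s ^ 56) ^ α * (s ^ 20) ^ 2 * s ^ 20 ≤ 1 / 8 * s ^ 20 := by
      have := h.pw_small (show 20 < 59 by norm_num)
      nlinarith
    have k7 := le_of_mul_le_mul_right k6 hT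
    nlinarith [(abs_le.1 q3).1]
  have k8 : (x + s ^ 56) ^ α * QS (s ^ 20) a 1 x ≤ 0 := mul_nonpos_of_nonneg_of_nonpos p0.le q2
  have e : α * (x + s ^ 56) ^ α / (x + s ^ 56) * QS (s ^ 20) a 0 x =
      α * ((x + s ^ 56) ^ α / (x + s ^ 56) * QS (s ^ 20) a 0 x) := by ring
  have k9 : α * ((x + s ^ 56) ^ α / (x + s ^ 56) * QS (s ^ 20) a 0 x) ≤ 0 :=
    mul_nonpos_of_nonpos_of_nonneg h.α1 k3
  have k10 : -(1 / 4) ≤ α * ((x + s ^ 56) ^ α / (x + s ^ 56) * QS (s ^ 20) a 0 x) := by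
    nlinarith [h.α0, h.α1]
  rw [e]
  refine ⟨by nlinarith, fun hx0 => ?_, abs_le.2 ⟨by linarith, by linarith⟩, by linarith⟩
  have k11 := h.ypow_le' hx0 (by linarith) (p := -(1 / 10)) (by linarith [h.α0])
  rw [mul_comm (3 / 4 * (s ^ 20) ^ 3)]
  exact mul_le_mul k11 q1 (by linarith) (p0.le.trans k11)

/-- `0 < w ≤ 2y`. -/
lemma w_bound (h : Pm X s α) (ha : ∀ i, |a i| ≤ 1) (hx : 0 ≤ x) :
    0 < Ga.wF x (ES X (s ^ 56) α (s ^ 20) a 0 (x + s ^ 56)) ∧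
      Ga.wF x (ES X (s ^ 56) α (s ^ 20) a 0 (x + s ^ 56)) ≤ 2 * (x + s ^ 56) := by
  have ho := pow_pos h.s0 56
  have hT := pow_pos h.s0 20
  have hX1 := h.X1
  unfold Ga.wF
  rcases lt_or_ge x (1 / 3) with h1 | h1
  · rw [Ga.m1_left h1, one_mul]
    rcases le_total x (s ^ 20) with h2 | h2
    · have h3 := abs_le.1 (h.eta_small ha hx h2)
      refine ⟨?_, by linarith⟩
      rcases le_total x (s ^ 20 / 200) with h4 | h4
      · have := (h.eta_in ha ⟨hx, h4⟩).1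
        have := pow_pos hT 3
        linarith
      · have := h.pw_small (show 20 < 56 by norm_num)
        linarith
    · have h3 := abs_le.1 (h.eta_big ha h2)
      have hx0 : 0 < x := by linarith
      constructor <;> nlinarith
  · rw [h.eta_far a (by linarith)]
    constructor <;> linarith

lemma om_div (h : Pm X s α) (hx : 0 < x) :
    s ^ 56 / (x + s ^ 56) ≤ s ^ 30 * x ^ (-(11 / 20) : ℝ) := by
  have ho := pow_pos h.s0 56
  have h1 : s ^ 56 / (x + s ^ 56) ≤ (s ^ 56 / x) ^ (11 / 20 : ℝ) := by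
    rcases le_total (s ^ 56) x with h2 | h2
    · refine (div_le_div_of_nonneg_left ho.le hx (by linarith)).trans ?_
      exact Real.self_le_rpow_of_le_one (by positivity) ((div_le_one hx).2 h2) (by norm_num)
    · exact ((div_le_one (by linarith)).2 (by linarith)).trans
        (Real.one_le_rpow ((one_le_div hx).2 h2) (by norm_num))
  refine h1.trans ?_
  rw [Real.div_rpow ho.le hx.le, Real.rpow_neg hx.le, div_eq_mul_inv]
  refine mul_le_mul_of_nonneg_right ?_ (by positivity)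
  rw [← Real.rpow_natCast, ← Real.rpow_mul h.s0.le, ← Real.rpow_natCast]
  exact Real.rpow_le_rpow_of_exponent_ge h.s0 h.s1 (by norm_num)

end Pm

end Crest.Agent.N207.S.Da
end
end

-- ▼ part N207/S/Da/Out
section
/-!
Row 207 (S0320), block DATA (helper81): the jets of `V = x^(-α) η₀` on `(0, 2X)`.
-/

set_option autoImplicit false

open Set Filter
open scoped Topology ContDiff

noncomputable section
namespace Crest.Agent.N207.S.Da

open Out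

lemma sz_shift {f : ℕ → ℝ → ℝ} {m : ℕ} {c x o : ℝ} (hx : 0 ≤ x) (ho : 0 ≤ o)
    (h : Sz m c f (x + o)) : Sz m c (fun j y => f j (y + o)) x := fun j hj =>
  (mul_le_mul_of_nonneg_left (pow_le_pow_left₀ hx (by linarith) j) (abs_nonneg _)).trans (h j hj)

/-- jets of `(1 + om/x)^α - 1`. -/
def HS (α om : ℝ) : ℕ → ℝ → ℝ := fun j x =>
  pr (pw (-α)) (fun j y => pw α j (y + om)) j x - oneS j x

lemma isSeq_pw_shift (p : ℝ) {om : ℝ} (ho : 0 < om) :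
    IsSeq (Ioi 0) fun j y => pw p j (y + om) :=
  isSeq_shift om (isSeq_pw p subset_rfl) fun y (hy : 0 < y) => (show 0 < y + om by linarith)

lemma isSeq_HS (α : ℝ) {om : ℝ} (ho : 0 < om) : IsSeq (Ioi 0) (HS α om) :=
  ((isSeq_pw _ subset_rfl).pr (isSeq_pw_shift α ho)).sub (isSeq_oneS _)

lemma G_le {α om x : ℝ} (ho : 0 < om) (hx : 0 < x) (hα : α ≤ 0) :
    x ^ (-α) * (x + om) ^ α ≤ 1 := by
  have h1 : (x + om) ^ α ≤ x ^ α := Real.rpow_le_rpow_of_nonpos hx (by linarith) hα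
  have h2 : x ^ (-α) * x ^ α = 1 := by rw [← Real.rpow_add hx]; simp
  rw [← h2]
  exact mul_le_mul_of_nonneg_left h1 (Real.rpow_pos_of_pos hx _).le

lemma G_ge {α om x : ℝ} (ho : 0 < om) (hx : 0 < x) (hα : -1 ≤ α) :
    1 - om / x ≤ x ^ (-α) * (x + om) ^ α := by
  have h1 : x ^ (-α) * (x + om) ^ α = ((x + om) / x) ^ α := by
    rw [Real.div_rpow (by linarith) hx.le, Real.rpow_neg hx.le]; ring
  have h2 : ((x + om) / x) ^ (-1 : ℝ) ≤ ((x + om) / x) ^ α :=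
    Real.rpow_le_rpow_of_exponent_le ((one_le_div hx).2 (by linarith)) hα
  rw [h1]
  refine le_trans ?_ h2
  rw [Real.rpow_neg_one, inv_div, le_div_iff₀ (by linarith)]
  have : (1 - om / x) * (x + om) = x - om ^ 2 / x := by field_simp; ring
  rw [this]
  have : 0 ≤ om ^ 2 / x := by positivity
  linarith

lemma sz_HS {α om x : ℝ} (ho : 0 < om) (hx : 0 < x) (h0 : -(4 / 10 ^ 6) ≤ α) (h1 : α ≤ 0) :
    Sz 4 (om / x) (HS α om) x := by
  have hy : 0 < x + om := by linarith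
  have g1 := G_le ho hx h1
  have g0 := G_ge ho hx (show -1 ≤ α by linarith)
  have e : ∀ j, sh (HS α om) j x = -(α * om) * pr (pw (-α - 1))
      (pr (fun j y => pw α j (y + om)) (fun j y => pw (-1) j (y + om))) j x := fun j =>
    IsSeq.unique isOpen_Ioi (isSeq_HS α ho).sh (((isSeq_pw _ subset_rfl).pr
      ((isSeq_pw_shift α ho).pr (isSeq_pw_shift (-1) ho))).cmul _) (fun y (hy : 0 < y) => by
        have hy' : 0 < y + om := by linarith
        simp only [sh, HS, oneS, zero_add, pr_one, pr_zero, pw_zero, pw_one _ hy, pw_one _ hy',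
          Real.rpow_sub_one hy.ne', Real.rpow_neg_one]
        field_simp
        ring) j x hx
  have s1 := sz_pw (p := -α - 1) (abs_le.2 ⟨by linarith, by linarith⟩) hx 3
  have s2 := sz_shift hx.le ho.le (sz_pw (p := α) (abs_le.2 ⟨by linarith, by linarith⟩) hy 3)
  have s3 := sz_shift hx.le ho.le (sz_pw (p := -1) (by simp) hy 3)
  have s4 := s1.pr hx (s2.pr hx s3)
  have c : (2 : ℝ) ^ 3 * ((Nat.factorial 3 : ℕ) * x ^ (-α - 1)) * (2 ^ 3 * ((Nat.factorial 3 : ℕ) *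
      (x + om) ^ α) * ((Nat.factorial 3 : ℕ) * (x + om) ^ (-1 : ℝ))) ≤ 13824 / x ^ 2 := by
    rw [Real.rpow_sub_one hx.ne', Real.rpow_neg_one]
    have e2 : (2 : ℝ) ^ 3 * ((Nat.factorial 3 : ℕ) * (x ^ (-α) / x)) * (2 ^ 3 *
        ((Nat.factorial 3 : ℕ) * (x + om) ^ α) * ((Nat.factorial 3 : ℕ) * (x + om)⁻¹)) =
        13824 * (x ^ (-α) * (x + om) ^ α) / (x * (x + om)) := by
      simp only [Nat.factorial]; push_cast; field_simp; ring
    rw [e2]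
    exact div_le_div₀ (by norm_num) (by linarith) (by positivity) (by nlinarith)
  intro j hj
  rcases j with _ | j
  · simp only [HS, oneS, pr_zero, pw_zero, pow_zero, mul_one]
    have : 0 ≤ om / x := by positivity
    exact abs_le.2 ⟨by linarith, by linarith⟩
  · have s5 := (s4 j (Nat.le_of_succ_le_succ hj)).trans c
    have e3 := e j
    simp only [sh] at e3
    rw [e3, abs_mul, abs_neg, abs_mul, abs_of_pos ho, abs_of_nonpos h1, pow_succ]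
    have s6 := mul_le_mul_of_nonneg_left s5 (show 0 ≤ -α * om * x by
      have : 0 ≤ -α := by linarith
      positivity)
    have e4 : -α * om * x * (13824 / x ^ 2) = (-α * 13824) * (om / x) := by field_simp
    have : 0 ≤ om / x := by positivity
    rw [e4] at s6
    nlinarith

namespace Pm

variable {X s α x : ℝ} {a : Fin 3 → ℝ}

/-- jets of `V`. -/
lemma V_eq (h : Pm X s α) (a : Fin 3 → ℝ) (hx : x ∈ Ioo 0 (2 * X)) (j : ℕ) :
    pr (pw (-α)) (fun i y => ES X (s ^ 56) α (s ^ 20) a i (y + s ^ 56)) j x =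
      QS (s ^ 20) a j x + pr (HS α (s ^ 56)) (QS (s ^ 20) a) j x := by
  have ho := pow_pos h.s0 56
  have sub : Ioo 0 (2 * X) ⊆ Ioi (0 : ℝ) := fun y hy => hy.1
  refine IsSeq.unique (U := Ioo 0 (2 * X)) isOpen_Ioo ((isSeq_pw _ sub).pr
    (isSeq_shift _ (isSeq_ES _ _ _ _ _) fun y hy => (show 0 < y + s ^ 56 by linarith [hy.1])))
    ((isSeq_QS _ _ _).add (((isSeq_HS α ho).mono sub).pr (isSeq_QS _ _ _))) (fun y hy => ?_) j x hx
  simp only [pr_zero, ES_zero, HS, oneS, pw_zero]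
  rw [chi_left (by rw [div_le_iff₀ h.X0]; exact hy.2.le)]
  ring

lemma V_rem (h : Pm X s α) (ha : ∀ i, |a i| ≤ 1) (hx : 0 < x) {j : ℕ} (hj : j ≤ 4) :
    |pr (HS α (s ^ 56)) (QS (s ^ 20) a) j x| * x ^ (j + 1) ≤ 384 * s ^ 56 * max x (s ^ 20) ^ 3 := by
  have h1 : Sz 4 (24 * max x (s ^ 20) ^ 3) (QS (s ^ 20) a) x := fun j _ =>
    QS_wt ha (pow_pos h.s0 20).le hx.le (le_max_right _ _) (le_max_left _ _) hx.le
      (by linarith [le_max_left x (s ^ 20)]) j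
  have h2 := mul_le_mul_of_nonneg_right
    ((sz_HS (pow_pos h.s0 56) hx h.α0 h.α1).pr hx h1 j hj) hx.le
  refine le_trans (le_of_eq (by ring)) (h2.trans (le_of_eq ?_))
  field_simp
  ring

lemma V4 (h : Pm X s α) (ha : ∀ i, |a i| ≤ 1) (h1 : s ^ 21 ≤ x) :
    |pr (HS α (s ^ 56)) (QS (s ^ 20) a) 4 x| ≤ 1 := by
  have hs := h.s0
  have hx : 0 < x := (pow_pos hs 21).trans_le h1
  have h2 := h.V_rem ha hx (le_refl 4)
  refine le_of_mul_le_mul_right (h2.trans ?_) (pow_pos hx (4 + 1))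
  rcases le_total x (s ^ 20) with h3 | h3
  · rw [max_eq_right h3]
    have h4 := pow_le_pow_left₀ (pow_pos hs 21).le h1 5
    have h5 := h.pw_small (show 105 < 116 by norm_num)
    have := pow_pos hs 105
    have e1 : (s ^ 21) ^ 5 = s ^ 105 := by ring
    have e2 : 384 * s ^ 56 * (s ^ 20) ^ 3 = 384 * s ^ 116 := by ring
    rw [e2]
    norm_num
    linarith
  · rw [max_eq_left h3]
    have h4 := pow_le_pow_left₀ (pow_pos hs 20).le h3 2
    have h5 := h.pw_small (show 40 < 56 by norm_num)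
    have := pow_pos hs 40
    have e1 : (s ^ 20) ^ 2 = s ^ 40 := by ring
    have h6 : 384 * s ^ 56 ≤ x ^ 2 := by linarith
    have := mul_le_mul_of_nonneg_right h6 (pow_pos hx 3).le
    norm_num
    nlinarith

lemma V3 (h : Pm X s α) (ha : ∀ i, |a i| ≤ 1) :
    |pr (HS α (s ^ 56)) (QS (s ^ 20) a) 3 X| ≤ 1 / 400 := by
  have hX := h.X0
  have h2 := h.V_rem ha hX (show 3 ≤ 4 by norm_num)
  rw [max_eq_left (h.pw_le_X (by norm_num))] at h2
  refine le_of_mul_le_mul_right (h2.trans ?_) (pow_pos hX (3 + 1))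
  have h5 := h.pw_small (show 1 < 56 by norm_num)
  have h6 : 384 * s ^ 56 ≤ 1 / 400 * X := by linarith [h.sX, h.s0, pow_one s]
  have := mul_le_mul_of_nonneg_right h6 (pow_pos hX 3).le
  nlinarith

lemma Vn (h : Pm X s α) (ha : ∀ i, |a i| ≤ 1) (j : Fin 3) :
    |(QS (s ^ 20) a j (s ^ 20) + pr (HS α (s ^ 56)) (QS (s ^ 20) a) j (s ^ 20)) /
      (s ^ 20) ^ (3 - (j : ℕ)) - a j / 50| < 1 / 100 := by
  have hT := pow_pos h.s0 20
  have h2 := h.V_rem ha hT (j := j) (by omega)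
  rw [max_self] at h2
  have h3 : QS (s ^ 20) a j (s ^ 20) = a j / 50 * (s ^ 20) ^ (3 - (j : ℕ)) := by
    fin_cases j <;> simp [QS] <;> ring
  have h5 := h.pw_small (show 20 < 56 by norm_num)
  have h4 : 384 * s ^ 56 ≤ 1 / 200 * s ^ 20 := by linarith
  generalize pr (HS α (s ^ 56)) (QS (s ^ 20) a) j (s ^ 20) = R at h2 ⊢
  rw [h3]
  generalize s ^ 20 = T at h2 h4 hT ⊢
  have hp := pow_pos hT (3 - (j : ℕ))
  have e : (a j / 50 * T ^ (3 - (j : ℕ)) + R) / T ^ (3 - (j : ℕ)) - a j / 50 =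
      R / T ^ (3 - (j : ℕ)) := by field_simp; ring
  rw [e, abs_div, abs_of_pos hp, div_lt_iff₀ hp]
  refine lt_of_mul_lt_mul_right (h2.trans_lt ?_) (pow_pos hT ((j : ℕ) + 1)).le
  have e2 : 1 / 100 * T ^ (3 - (j : ℕ)) * T ^ ((j : ℕ) + 1) = 1 / 100 * T * T ^ 3 := by
    rw [mul_assoc, ← pow_add, show 3 - (j : ℕ) + ((j : ℕ) + 1) = 4 by omega]; ring
  rw [e2]
  have := mul_le_mul_of_nonneg_right h4 (pow_pos hT 3).le
  have := mul_pos hT (pow_pos hT 3)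
  nlinarith

end Pm

end Crest.Agent.N207.S.Da
end
end

-- ▼ part N207/S/Da/Top
/-!
Row 207 (S0320), block DATA (helper81): `dataStmt : Top.DataStmt`.
-/

set_option autoImplicit false

open Set Filter
open scoped Topology ContDiff

noncomputable section
namespace Crest.Agent.N207.S.Da

open Out Ga

/-- a vector of `E3`. -/
def vec (a b c : ℝ) : E3 :=
  a • EuclideanSpace.single 0 1 + b • EuclideanSpace.single 1 1 + c • EuclideanSpace.single 2 1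

lemma vec0 (a b c : ℝ) : vec a b c 0 = a := by simp [vec]
lemma vec1 (a b c : ℝ) : vec a b c 1 = b := by simp [vec]
lemma vec2 (a b c : ℝ) : vec a b c 2 = c := by simp [vec]

lemma norm_vec (a b c : ℝ) : ‖vec a b c‖ ≤ |a| + |b| + |c| := by
  unfold vec
  refine norm_add₃_le.trans (le_of_eq ?_)
  simp [norm_smul]

/-- clamping to `[-1,1]`. -/
def cl (p : Fin 3 → ℝ) : Fin 3 → ℝ := fun i => max (-1) (min 1 (p i))

lemma abs_cl (p : Fin 3 → ℝ) (i : Fin 3) : |cl p i| ≤ 1 :=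
  abs_le.2 ⟨le_max_left _ _, max_le (by norm_num) (min_le_left _ _)⟩

/-- jets of the initial data. -/
def UU (X s d α : ℝ) (p : Fin 3 → ℝ) (j : ℕ) (x : ℝ) : E3 :=
  vec (ES X (s ^ 56) α (s ^ 20) (cl p) j (x + s ^ 56))
    (ES X (s ^ 56) α (s ^ 20) (cl p) (j + 1) (x + s ^ 56)) (d * pw (-1) j (x + s ^ 56))

section

variable {X s d α : ℝ}

lemma seqE (hs : 0 < s) (X α : ℝ) (a : Fin 3 → ℝ) :
    IsSeq (Ioi (-s ^ 56)) fun j x => ES X (s ^ 56) α (s ^ 20) a j (x + s ^ 56) :=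
  isSeq_shift _ (isSeq_ES _ _ _ _ _) fun y (hy : -s ^ 56 < y) => (show 0 < y + s ^ 56 by
    have := hs; linarith)

lemma seqK (hs : 0 < s) (d : ℝ) : IsSeq (Ioi (-s ^ 56)) fun j x => d * pw (-1) j (x + s ^ 56) :=
  (isSeq_shift _ (isSeq_pw _ subset_rfl) fun y (hy : -s ^ 56 < y) => (show 0 < y + s ^ 56 by
    have := hs; linarith)).cmul d

lemma sub01 (hs : 0 < s) : Icc (0 : ℝ) 1 ⊆ Ioi (-s ^ 56) := fun x hx =>
  lt_of_lt_of_le (by simpa using pow_pos hs 56) hx.1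

lemma hd_UU (hs : 0 < s) (X d α : ℝ) (p : Fin 3 → ℝ) (j : ℕ) (x : ℝ) (hx : x ∈ Icc (0 : ℝ) 1) :
    HasDerivAt (UU X s d α p j) (UU X s d α p (j + 1) x) x :=
  (((seqE hs X α _ j x (sub01 hs hx)).smul_const _).add
    ((seqE hs X α _ (j + 1) x (sub01 hs hx)).smul_const _)).add
    ((seqK hs d j x (sub01 hs hx)).smul_const _)

lemma cd_of_seq {f : ℕ → ℝ → ℝ} (hs : 0 < s) (hf : IsSeq (Ioi (-s ^ 56)) f) :
    ContDiffOn ℝ ∞ (f 0) (Icc 0 1) :=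
  (contDiffOn_infty.2 fun n => hf.contDiffOn isOpen_Ioi n).mono (sub01 hs)

lemma cd_UU (hs : 0 < s) (X d α : ℝ) (p : Fin 3 → ℝ) :
    ContDiffOn ℝ ∞ (UU X s d α p 0) (Icc 0 1) :=
  (((cd_of_seq hs (seqE hs X α _)).smul contDiffOn_const).add
    ((cd_of_seq hs (seqE hs X α _).sh).smul contDiffOn_const)).add
    ((cd_of_seq hs (seqK hs d)).smul contDiffOn_const)

lemma cont_UU (hs : 0 < s) (X d α : ℝ) (p : Fin 3 → ℝ) (x : ℝ) (hx : x ∈ Icc (0 : ℝ) 1) :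
    ContinuousAt (fun z : (Fin 3 → ℝ) × ℝ => UU X s d α z.1 0 z.2) (p, x) := by
  have hy : x + s ^ 56 ∈ Ioi (0 : ℝ) := by
    have := pow_pos hs 56
    have := hx.1
    simp only [mem_Ioi]; linarith
  have lift : ∀ {f : ℝ → ℝ}, ContinuousAt f (x + s ^ 56) →
      ContinuousAt (fun z : (Fin 3 → ℝ) × ℝ => f (z.2 + s ^ 56)) (p, x) := fun {f} hf =>
    ContinuousAt.comp (f := fun z : (Fin 3 → ℝ) × ℝ => z.2 + s ^ 56) hf (by fun_prop)
  have hP := (isSeq_cS X (s ^ 56) _).pr (isSeq_pw α (subset_refl (Ioi 0)))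
  have p0 := lift (hP 0 _ hy).continuousAt
  have p1 := lift (hP 1 _ hy).continuousAt
  have k0 := lift (isSeq_pw (-1) (subset_refl (Ioi 0)) 0 _ hy).continuousAt
  have q0 : ContinuousAt (fun z : (Fin 3 → ℝ) × ℝ =>
      QS (s ^ 20) (cl z.1) 0 (z.2 + s ^ 56 - s ^ 56)) (p, x) := by
    simp only [QS, cl]; fun_prop
  have q1 : ContinuousAt (fun z : (Fin 3 → ℝ) × ℝ =>
      QS (s ^ 20) (cl z.1) 1 (z.2 + s ^ 56 - s ^ 56)) (p, x) := by
    simp only [QS, cl]; fun_prop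
  exact (((p0.mul q0).smul continuousAt_const).add
    (((p1.mul q0).add (p0.mul q1)).smul continuousAt_const)).add
    ((continuousAt_const.mul k0).smul continuousAt_const)

lemma abs_k {y : ℝ} (hy : 0 < y) (hd : 0 ≤ d) {j m : ℕ} (hj : j ≤ m) :
    |d * pw (-1) j y| * y ^ (j + 1) ≤ m.factorial * d := by
  have h1 := mul_le_mul_of_nonneg_right (sz_pw (p := -1) (by simp) hy m j hj) hy.le
  rw [Real.rpow_neg_one, mul_assoc _ y⁻¹, inv_mul_cancel₀ hy.ne', mul_one] at h1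
  rw [abs_mul, abs_of_nonneg hd, pow_succ]
  nlinarith

/-- size constant. -/
def KE (m : ℕ) (C : ℝ) : ℝ := 2 ^ m * (2 ^ m * (4 ^ m * C) * m.factorial) * 24

lemma abs_E (h : Pm X s α) {a : Fin 3 → ℝ} (ha : ∀ i, |a i| ≤ 1) {m : ℕ} {C x : ℝ} (hC1 : 1 ≤ C)
    (hC : ∀ j ≤ m, ∀ y, 0 ≤ y → |chiD j y| ≤ C) (hx : x ∈ Icc (0 : ℝ) 1) {j : ℕ} (hj : j ≤ m) :
    |ES X (s ^ 56) α (s ^ 20) a j (x + s ^ 56)| * (x + s ^ 56) ^ j ≤ KE m C * (x + s ^ 56) := by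
  have h1 := sz_ES (X := X) (α := α) h.X0 (pow_pos h.s0 56) (h.pw_le_X (by norm_num)) h.abs_α ha
    (h.pw_le (show 20 ≤ 56 by norm_num)) hx.1 (le_max_right x _) (le_max_left _ _) hC j hj
  refine h1.trans ?_
  have h2 := mul_le_mul_of_nonneg_left (h.key hx.1 hx.2) (show 0 ≤ KE m C by
    unfold KE; positivity)
  refine le_trans (le_of_eq ?_) h2
  unfold KE; ring

lemma le_div_of_wt {u y o K : ℝ} {j : ℕ} (ho : 0 < o) (hy : o ≤ y) (h : |u| * y ^ j ≤ K) :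
    |u| ≤ K / o ^ j := by
  rw [le_div_iff₀ (pow_pos ho j)]
  exact (mul_le_mul_of_nonneg_left (pow_le_pow_left₀ ho.le hy j) (abs_nonneg _)).trans h

end

theorem dataStmt : Top.DataStmt := by
  obtain ⟨C, hC1, hC⟩ := exists_chi_bound 41
  have hK : 0 ≤ KE 41 C := by unfold KE; positivity
  obtain ⟨N, hN⟩ : ∃ N : ℝ, N = (Nat.factorial 40 : ℕ) := ⟨_, rfl⟩
  have hN0 : 0 ≤ N := by rw [hN]; positivity
  refine ⟨1 + 2 ^ 41 * (KE 41 C + 2 * N), by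
    have : 0 ≤ 2 ^ 41 * (KE 41 C + 2 * N) := by positivity
    linarith, fun X hX hX1 => ⟨X ^ 20, by positivity, fun e d α T hp hT hT0 => ?_⟩⟩
  obtain ⟨s, hs, rfl⟩ : ∃ s : ℝ, 0 < s ∧ T = s ^ 20 :=
    ⟨T ^ ((20 : ℕ) : ℝ)⁻¹, Real.rpow_pos_of_pos hT _,
      (Real.rpow_inv_natCast_pow hT.le (by norm_num)).symm⟩
  have d0 := hp.d0
  have d1 := hp.d1
  have e0 := hp.e0
  have h : Pm X s α := ⟨hs, (pow_le_pow_iff_left₀ hs.le hX.le (by norm_num)).1 hT0, hX1,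
    by linarith [hp.α0], hp.α1⟩
  have ho := pow_pos hs 56
  have hoX := h.pw_le_X (n := 56) (by norm_num)
  have hTX := h.pw_le_X (n := 20) (by norm_num)
  have rp : ∀ (r : ℝ) (n : ℕ), 20 * r = n → (s ^ 20) ^ r = s ^ n := fun r n hr => by
    rw [← Real.rpow_natCast s 20, ← Real.rpow_mul hs.le, ← Real.rpow_natCast]
    congr 1
  have de : d ≤ 2 * e := by
    rw [hp.hd]; exact div_le_self (by positivity) (by linarith)
  refine ⟨fun p => UU X s d α p 0, cd_UU hs X d α, fun p x hx => ?_, fun j => ?_,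
    fun p ε hε => ?_, fun p U hU => ?_⟩
  · have hy : 0 < x + s ^ 56 := by linarith [hx.1]
    refine mem_Om hx (fun h3 => ?_) ?_ ?_
    · simp only [UU, vec0]
      rw [h.eta_far _ (by linarith), abs_zero]; exact del0_pos.le
    · simp only [UU, vec0]; exact (h.w_bound (abs_cl p) hx.1).1
    · simp only [UU, vec2, pw_zero, Real.rpow_neg_one]
      have h1 : m0 x ≤ 3 * x := by
        rcases le_total x (1 / 3) with h2 | h2
        · rw [m0_left h2]; linarith [hx.1]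
        · have := st_nonneg x
          have := st_le_one x
          unfold m0; nlinarith [hx.2]
      have h2 : m0 x * (x + s ^ 56)⁻¹ ≤ 3 := by
        rw [← div_eq_mul_inv, div_le_iff₀ hy]; linarith
      nlinarith
  · obtain ⟨C', hC1', hC'⟩ := exists_chi_bound (j + 1)
    refine ⟨KE (j + 1) C' * 2 / (s ^ 56) ^ j + KE (j + 1) C' * 2 / (s ^ 56) ^ (j + 1) +
      j.factorial * d / (s ^ 56) ^ (j + 1), fun p x hx => ?_⟩
    have hK' : 0 ≤ KE (j + 1) C' := by unfold KE; positivity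
    have hy : KE (j + 1) C' * (x + s ^ 56) ≤ KE (j + 1) C' * 2 :=
      mul_le_mul_of_nonneg_left (by linarith [hx.2]) hK'
    have hy0 : s ^ 56 ≤ x + s ^ 56 := by linarith [hx.1]
    rw [jet_eq (hd_UU hs X d α p) (fun _ _ => rfl) j x hx]
    refine (norm_vec _ _ _).trans (add_le_add (add_le_add ?_ ?_) ?_)
    · exact le_div_of_wt ho hy0 ((abs_E h (abs_cl p) hC1' hC' hx (Nat.le_succ j)).trans hy)
    · exact le_div_of_wt ho hy0 ((abs_E h (abs_cl p) hC1' hC' hx le_rfl).trans hy)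
    · exact le_div_of_wt ho hy0 (abs_k (by linarith) d0.le le_rfl)
  · refine isCompact_Icc.eventually_forall_of_forall_eventually fun x hx => ?_
    have h1 : ContinuousAt (fun z : (Fin 3 → ℝ) × ℝ => UU X s d α p 0 z.2) (p, x) :=
      ContinuousAt.comp (g := UU X s d α p 0) (f := fun z : (Fin 3 → ℝ) × ℝ => z.2) (x := (p, x))
        (hd_UU hs X d α p 0 x hx).continuousAt continuousAt_snd
    have h2 := ((cont_UU hs X d α p x hx).sub h1).norm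
    exact (h2.eventually (ge_mem_nhds (by simpa using hε)))
  · have c0 : ∀ j, ∀ x ∈ Icc (0 : ℝ) 1,
        cj U 0 j 0 x = ES X (s ^ 56) α (s ^ 20) (cl p) j (x + s ^ 56) := fun j =>
      jet_eq (F := fun j x => ES X (s ^ 56) α (s ^ 20) (cl p) j (x + s ^ 56))
        (fun j x hx => seqE hs X α _ j x (sub01 hs hx))
        (fun x hx => by rw [hU x hx]; simp only [UU, vec0]) j
    have c2 : ∀ j, ∀ x ∈ Icc (0 : ℝ) 1, cj U 2 j 0 x = d * pw (-1) j (x + s ^ 56) := fun j =>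
      jet_eq (F := fun j x => d * pw (-1) j (x + s ^ 56))
        (fun j x hx => seqK hs d j x (sub01 hs hx))
        (fun x hx => by rw [hU x hx]; simp only [UU, vec2]) j
    have u0 : ∀ x ∈ Icc (0 : ℝ) 1, U 0 x 0 = ES X (s ^ 56) α (s ^ 20) (cl p) 0 (x + s ^ 56) :=
      fun x hx => by rw [hU x hx]; simp only [UU, vec0]
    have hV : ∀ j, ∀ x ∈ Ioo 0 (2 * X), VV α (Top.wT U) j 0 x =
        QS (s ^ 20) (cl p) j x + pr (HS α (s ^ 56)) (QS (s ^ 20) (cl p)) j x := by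
      intro j x hx
      have hx' : x ∈ Icc (0 : ℝ) 1 := ⟨hx.1.le, by linarith [hx.2]⟩
      rw [← h.V_eq _ hx]
      refine mulS_congr j fun i => ?_
      rw [← c0 i x hx']
      rcases i with _ | _ | i
      · rw [WS_zero]; simp [Top.wT, Top.idS]
      · rw [WS_one]; simp [Top.wT, Top.idS]
      · rw [WS_high]; simp [Top.wT, Top.idS]
    have in01 : ∀ x ∈ Icc 0 (s ^ 20 / 200), x ∈ Icc (0 : ℝ) 1 := fun x hx =>
      ⟨hx.1, by linarith [hx.2]⟩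
    refine ⟨fun x hx => ?_, fun x hx j hj => ?_, fun x hx => ?_, ⟨fun x hx => ?_, fun x hx => ?_,
      fun x hx => ?_⟩, ⟨fun x hx => ?_, ?_⟩, fun j => ?_⟩
    · rw [c0 1 x hx, hU x hx]; simp only [UU, vec1]
    · have hy : 0 < x + s ^ 56 := by linarith [hx.1]
      obtain ⟨w0, w1⟩ := h.w_bound (X := X) (α := α) (abs_cl p) hx.1
      have a0 : Ex.jet (j + 1) (fun y => U 0 y 0) x = _ := c0 (j + 1) x hx
      have a2 : Ex.jet j (fun y => U 0 y 2) x = _ := c2 j x hx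
      rw [a0, a2, u0 x hx]
      have hw : ∀ i ≤ 41, wF x (ES X (s ^ 56) α (s ^ 20) (cl p) 0 (x + s ^ 56)) ^ i ≤
          2 ^ 41 * (x + s ^ 56) ^ i := fun i hi => by
        refine (pow_le_pow_left₀ w0.le w1 i).trans ?_
        rw [mul_pow]
        exact mul_le_mul_of_nonneg_right (pow_le_pow_right₀ (by norm_num) hi) (by positivity)
      have b1 := abs_E h (abs_cl p) hC1 hC hx (j := j + 1) (by omega)
      rw [pow_succ (x + s ^ 56) j, ← mul_assoc] at b1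
      have b2 := le_of_mul_le_mul_right b1 hy
      have b3 := abs_k hy d0.le hj
      rw [← hN] at b3
      have b4 := mul_le_mul_of_nonneg_right (hw j (by omega))
        (abs_nonneg (ES X (s ^ 56) α (s ^ 20) (cl p) (j + 1) (x + s ^ 56)))
      have b5 := mul_le_mul_of_nonneg_right (hw (j + 1) (by omega))
        (abs_nonneg (d * pw (-1) j (x + s ^ 56)))
      have b6 := mul_le_mul_of_nonneg_left de hN0
      have b7 := mul_nonneg hK e0.le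
      constructor
      · nlinarith
      · nlinarith
    · have hx' : x ∈ Icc (0 : ℝ) 1 := ⟨by linarith [hx.1], hx.2⟩
      rw [u0 x hx']
      rcases le_or_gt x (3 * X) with h3 | h3
      · refine (h.eta_big (abs_cl p) (hTX.trans hx.1)).trans ?_
        nlinarith [hx.1]
      · rw [h.eta_far _ h3, abs_zero]; positivity
    · obtain ⟨i1, -, i3, i4⟩ := h.eta_in (X := X) (α := α) (abs_cl p) hx
      simp only [Top.wT, Top.idS, c0 _ x (in01 x hx), add_sub_cancel_right]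
      exact ⟨i1, i3, i4.trans (by positivity)⟩
    · have hx' : x ∈ Icc 0 (s ^ 20 / 200) := ⟨hx.1.le, hx.2⟩
      simp only [Top.wT, Top.idS, c0 _ x (in01 x hx'), add_sub_cancel_right]
      exact (h.eta_in (abs_cl p) hx').2.1 hx.1
    · have hx' : x ∈ Icc (0 : ℝ) 1 := ⟨hx.1.le, by linarith [hx.2]⟩
      have hy : 0 < x + s ^ 56 := by linarith [hx.1]
      rw [c2 0 x hx', pw_zero, Real.rpow_neg_one, rp (3 / 2) 30 (by norm_num)]
      have e1 : 1 - x * (d * (x + s ^ 56)⁻¹) - 1 / (1 + 2 * e) = d * (s ^ 56 / (x + s ^ 56)) := by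
        have e2 : 1 / (1 + 2 * e) = 1 - d := by rw [hp.hd]; field_simp; ring
        rw [e2]; field_simp; ring
      have h1 := h.om_div hx.1
      have h2 : 0 ≤ s ^ 56 / (x + s ^ 56) := by positivity
      rw [e1, abs_of_nonneg (by positivity)]
      nlinarith
    · rw [sub_zero, rp (21 / 20) 21 (by norm_num)] at hx
      have hx0 : 0 < x := (pow_pos hs 21).trans_le hx.1
      rw [hV 4 x ⟨hx0, by linarith [hx.2]⟩]
      have h1 := h.V4 (abs_cl p) hx.1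
      have h2 : 0 ≤ ((s ^ 20 - 0) / x) ^ 63 := by rw [sub_zero]; positivity
      simp only [QS, zero_add]
      linarith
    · rw [hV 3 X ⟨hX, by linarith⟩]
      have h1 := h.V3 (abs_cl p)
      simp only [QS]
      rwa [show ∀ u : ℝ, -3 + u + 3 = u from fun u => by ring]
    · have h1 := abs_lt.1 (h.Vn (abs_cl p) j)
      simp only [nn, sub_zero]
      rw [hV j _ ⟨hT, by linarith⟩]
      constructor
      · intro hj
        have : cl p j = 1 := by simp [cl, hj]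
        rw [this] at h1; linarith [h1.1]
      · intro hj
        have : cl p j = -1 := by simp [cl, hj]
        rw [this] at h1; linarith [h1.2]

end Crest.Agent.N207.S.Da
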